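import Vale.Agent.P281.H349.Gen.Loc
import Vale.Agent.P281.H150.Top

/-! P281, project T-V, neat models, block V13d (helper349): a hypersurface `D` with a map `(f, τ)` to
`ℂ^q × ℂ`, proper over a polydisc, finite over general points of `ℂ^q`: the image of `D` in the
polydisc is the set of the zeros of a holomorphic function. -/

open Set Filter Metric Vale.Agent.P281 Vale.Agent.P281.H713 Vale.Agent.P281.H64
open Vale.Agent.P281.H150.Gen
open scoped Topology ContDiff Manifold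

set_option linter.unusedSectionVars false

noncomputable section

namespace Vale.Agent.P281.H349.Gen

variable {q : ℕ} {M : Type} [TopologicalSpace M] [ChartedSpace (Cm (q + 1)) M]

/-- The setting. -/
structure Cov (D O : Set M) (f : M → Cm q) (τ : M → ℂ) (δ r : ℝ) : Prop where
  loc : ∀ x, ∃ g, IsLocalEq (Cm (q + 1)) D g x
  opn : IsOpen O
  hf : ∀ x ∈ O, HolV (Cm (q + 1)) f x
  hτ : ∀ x ∈ O, HolV (Cm (q + 1)) τ x
  δ0 : 0 < δ
  r0 : 0 < r
  cpt : IsCompact {x | x ∈ D ∧ x ∈ O ∧ ‖f x‖ ≤ δ ∧ ‖τ x‖ ≤ r}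
  bd : ∀ x ∈ D, x ∈ O → ‖f x‖ ≤ δ → ‖τ x‖ ≠ r
  dense : ∀ N : Set M, IsOpen N → (∃ x ∈ N, x ∈ D ∧ x ∈ O) → ∃ x ∈ N, x ∈ D ∧ x ∈ O ∧ Etl D f x

/-- The compact piece of `D`. -/
def KK (D O : Set M) (f : M → Cm q) (τ : M → ℂ) (δ r : ℝ) : Set M :=
  {x | x ∈ D ∧ x ∈ O ∧ ‖f x‖ ≤ δ ∧ ‖τ x‖ ≤ r}

/-- The branch locus. -/
def TT (D O : Set M) (f : M → Cm q) (τ : M → ℂ) (δ r : ℝ) : Set (Cm q) :=
  f '' (KK D O f τ δ r ∩ {x | ¬ Etl D f x})

/-- The open piece of `D`. -/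
abbrev ZZ (D O : Set M) (f : M → Cm q) (τ : M → ℂ) (δ r : ℝ) : Type :=
  {x : M // x ∈ D ∧ x ∈ O ∧ ‖f x‖ < δ ∧ ‖τ x‖ < r}

/-- The closed set over which `D` is not étale. -/
def SS (D O : Set M) (f : M → Cm q) (τ : M → ℂ) (δ r : ℝ) : Set (Cm q) :=
  TT D O f τ δ r ∪ (ball 0 δ)ᶜ

namespace Cov

variable [T2Space M] [IsManifold 𝓘(ℂ, Cm (q + 1)) ω M] {D O : Set M} {f : M → Cm q} {τ : M → ℂ}
  {δ r : ℝ}

theorem fcont (h : Cov D O f τ δ r) : ContinuousOn f (KK D O f τ δ r) := fun x hx =>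
  (h.hf x hx.2.1).continuousAt.continuousWithinAt

theorem τcont (h : Cov D O f τ δ r) : ContinuousOn τ (KK D O f τ δ r) := fun x hx =>
  (h.hτ x hx.2.1).continuousAt.continuousWithinAt

theorem T_closed (h : Cov D O f τ δ r) : IsClosed (TT D O f τ δ r) := by
  have hK : IsCompact (KK D O f τ δ r) := h.cpt
  have hcl : IsClosed (KK D O f τ δ r ∩ {x | ¬ Etl D f x}) := by
    refine isClosed_of_closure_subset fun x hx => ?_
    have hxK : x ∈ KK D O f τ δ r := closure_minimal inter_subset_left hK.isClosed hx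
    refine ⟨hxK, fun hE => ?_⟩
    have h1 := hE.eventually (h.hf x hxK.2.1)
    obtain ⟨y, hy1, hy2⟩ := ((mem_closure_iff_frequently.1 hx).and_eventually h1).exists
    exact hy1.2 hy2
  exact ((hK.of_isClosed_subset hcl inter_subset_left).image_of_continuousOn
    (h.fcont.mono inter_subset_left)).isClosed

theorem T_sthin [SecondCountableTopology M] (h : Cov D O f τ δ r) :
    SThin (Cm q) (TT D O f τ δ r) := by
  refine SThin.image_of_local fun z hz => ?_
  obtain ⟨N, hN, hS⟩ := sthin_loc h.loc (h.hf z hz.1.2.1)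
  refine ⟨N, hN, hS.mono (image_mono ?_)⟩
  rintro y ⟨hy1, hy2⟩
  exact ⟨⟨hy1.1.1, hy1.2⟩, hy2⟩

theorem S_closed (h : Cov D O f τ δ r) : IsClosed (SS D O f τ δ r) :=
  h.T_closed.union isOpen_ball.isClosed_compl

theorem S_compl [SecondCountableTopology M] (h : Cov D O f τ δ r) :
    IsPreconnected (SS D O f τ δ r)ᶜ := by
  have h1 : (SS D O f τ δ r)ᶜ = ball 0 δ \ TT D O f τ δ r := by
    rw [SS, compl_union, compl_compl, inter_comm]
    rfl
  rw [h1]
  exact compl_open isOpen_ball (convex_ball _ _).isPreconnected h.T_closed h.T_sthin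

theorem near (h : Cov D O f τ δ r) {x : M} (hx : x ∈ O) (h1 : ‖f x‖ < δ) (h2 : ‖τ x‖ < r) :
    ∀ᶠ z in 𝓝 x, z ∈ O ∧ ‖f z‖ < δ ∧ ‖τ z‖ < r := by
  filter_upwards [h.opn.mem_nhds hx, (h.hf x hx).continuousAt.norm.eventually_lt_const h1,
    (h.hτ x hx).continuousAt.norm.eventually_lt_const h2] with z a b c
  exact ⟨a, b, c⟩

theorem et (h : Cov D O f τ δ r) : H150.Et (fun z : ZZ D O f τ δ r => f z.1) (SS D O f τ δ r)
    {univ} (fun s y => AnalyticAt ℂ (fun y => τ (s y).1) y) := by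
  classical
  have hvc : Continuous (fun z : ZZ D O f τ δ r => z.1) := continuous_subtype_val
  refine
    { cont := continuous_iff_continuousAt.2 fun z =>
        ContinuousAt.comp (g := f) (h.hf z.1 z.2.2.1).continuousAt hvc.continuousAt
      closedS := h.S_closed
      proper := ?_
      fin := finite_singleton _
      closed := ?_
      disj := ?_
      sec := ?_ }
  · intro K hK hKS
    have h1 : IsCompact (KK D O f τ δ r ∩ f ⁻¹' K) := by
      have h2 := h.fcont.preimage_isClosed_of_isClosed (IsCompact.isClosed h.cpt) hK.isClosed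
      exact IsCompact.of_isClosed_subset h.cpt h2 inter_subset_left
    have h3 : (Subtype.val '' ((fun z : ZZ D O f τ δ r => f z.1) ⁻¹' K) : Set M) =
        KK D O f τ δ r ∩ f ⁻¹' K := by
      ext x
      constructor
      · rintro ⟨z, hz, rfl⟩
        exact ⟨⟨z.2.1, z.2.2.1, z.2.2.2.1.le, z.2.2.2.2.le⟩, hz⟩
      · rintro ⟨hx, hxK⟩
        have h4 : ‖f x‖ < δ := by
          by_contra hcon
          refine hKS hxK (Or.inr ?_)
          rw [mem_compl_iff, mem_ball_zero_iff]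
          exact hcon
        exact ⟨⟨x, hx.1, hx.2.1, h4, lt_of_le_of_ne hx.2.2.2 (h.bd x hx.1 hx.2.1 hx.2.2.1)⟩,
          hxK, rfl⟩
    exact Subtype.isCompact_iff.2 (by rw [h3]; exact h1)
  · rintro D' rfl
    exact isClosed_univ
  · rintro D₁ rfl D₂ rfl hne
    exact absurd rfl hne
  · rintro D₁ rfl x - hfx
    have hE : Etl D f x.1 := by
      by_contra hcon
      exact hfx (Or.inl ⟨x.1, ⟨⟨x.2.1, x.2.2.1, x.2.2.2.1.le, x.2.2.2.2.le⟩, hcon⟩, rfl⟩)
    obtain ⟨s₀, hs1, hs2, hs3, hs4⟩ := hE.sec (h.hf _ x.2.2.1) x.2.1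
    have hsc : ContinuousAt s₀ (f x.1) := ContMDiffAt.continuousAt hs1
    have hst : Tendsto s₀ (𝓝 (f x.1)) (𝓝 x.1) := by
      have := hsc.tendsto
      rwa [hs2] at this
    have hgood : ∀ᶠ y in 𝓝 (f x.1), s₀ y ∈ D ∧ s₀ y ∈ O ∧ ‖f (s₀ y)‖ < δ ∧ ‖τ (s₀ y)‖ < r := by
      filter_upwards [hs3, hst.eventually (h.near x.2.2.1 x.2.2.2.1 x.2.2.2.2)] with y h1 h2
      exact ⟨h1.2, h2⟩
    set s : Cm q → ZZ D O f τ δ r := fun y =>
      if hy : s₀ y ∈ D ∧ s₀ y ∈ O ∧ ‖f (s₀ y)‖ < δ ∧ ‖τ (s₀ y)‖ < r then ⟨s₀ y, hy⟩ else x with hs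
    have hss : ∀ y, (s₀ y ∈ D ∧ s₀ y ∈ O ∧ ‖f (s₀ y)‖ < δ ∧ ‖τ (s₀ y)‖ < r) → (s y).1 = s₀ y := by
      intro y hy
      simp only [hs]
      rw [dif_pos hy]
    have hτs : AnalyticAt ℂ (fun y => τ (s₀ y)) (f x.1) := by
      have h1 : HolV (Cm q) (fun y => τ (s₀ y)) (f x.1) :=
        HolV.comp (h := τ) (f := s₀) (by rw [hs2]; exact h.hτ _ x.2.2.1) hs1
      exact (contMDiffAt_iff_contDiffAt.1 h1).analyticAt
    refine ⟨s, ?_, ?_, ?_, ?_⟩
    · filter_upwards [hgood.eventually_nhds, hs3, hτs.eventually_analyticAt] with y h1 h2 h3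
      refine ⟨h3.congr ?_, ?_⟩
      · filter_upwards [h1] with y' hy'
        rw [hss y' hy']
      · show f (s y).1 = y
        rw [hss y h1.self_of_nhds]
        exact h2.1
    · have h1 : ContinuousAt (fun y => (s y).1) (f x.1) :=
        hsc.congr (hgood.mono fun y hy => (hss y hy).symm)
      exact Topology.IsInducing.subtypeVal.continuousAt_iff.2 h1
    · refine Subtype.ext ?_
      rw [hss _ (by rw [hs2]; exact x.2), hs2]
    · have h1 : ∀ᶠ z : ZZ D O f τ δ r in 𝓝 x, z.1 ∈ D → s₀ (f z.1) = z.1 :=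
        hvc.continuousAt.eventually hs4
      filter_upwards [h1] with z hz
      refine ⟨fun _ => ?_, fun _ => mem_univ _⟩
      refine Subtype.ext ?_
      rw [hss _ (by rw [hz z.2.1]; exact z.2), hz z.2.1]

/-- The polynomial with the zeros `τ z`, `z` in the fibre. -/
def Q₀ (_ : Cov D O f τ δ r) (w : Cm (q + 1)) : ℂ :=
  ∏ᶠ z ∈ {z : ZZ D O f τ δ r | f z.1 = pr q w}, (lst q w - τ z.1)

/-- Local triviality. -/
theorem exists_sections [SecondCountableTopology M] (h : Cov D O f τ δ r) :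
    ∃ d : ℕ, ∀ y₀ ∉ SS D O f τ δ r, ∃ (U : Set (Cm q)) (s : Fin d → Cm q → ZZ D O f τ δ r),
      IsOpen U ∧ y₀ ∈ U ∧ U ⊆ (SS D O f τ δ r)ᶜ ∧
      (∀ k, ∀ y ∈ U, AnalyticAt ℂ (fun y => τ (s k y).1) y ∧ f (s k y).1 = y) ∧
      (∀ x : ZZ D O f τ δ r, f x.1 ∈ U → ∃ k, x = s k (f x.1)) ∧
      ∀ w, pr q w ∈ U → h.Q₀ w = ∏ k, (lst q w - τ (s k (pr q w)).1) := by
  obtain ⟨d, δ', hd⟩ := h.et.main h.S_compl (fun _ => 0)
  refine ⟨d, fun y₀ hy₀ => ?_⟩
  obtain ⟨U, s, hUo, hyU, hUS, h1, h2, h3, -⟩ := hd y₀ hy₀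
  refine ⟨U, s, hUo, hyU, hUS, h1, fun x hx => h3 x hx univ rfl (mem_univ x), fun w hw => ?_⟩
  have hinj : Function.Injective fun k => s k (pr q w) := fun k l hkl => h2 k l _ hw hkl
  have hset : {z : ZZ D O f τ δ r | f z.1 = pr q w} = range fun k => s k (pr q w) := by
    ext z
    constructor
    · intro hz
      have hz' : f z.1 = pr q w := hz
      obtain ⟨k, hk⟩ := h3 z (by show f z.1 ∈ U; rw [hz']; exact hw) univ rfl (mem_univ z)
      have hk' : z = s k (f z.1) := hk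
      rw [hz'] at hk'
      exact ⟨k, hk'.symm⟩
    · rintro ⟨k, rfl⟩
      exact (h1 k _ hw).2
  rw [Q₀, hset, finprod_mem_range hinj, finprod_eq_prod_of_fintype]

theorem notMem_S (_ : Cov D O f τ δ r) {y : Cm q} (h1 : ‖y‖ < δ) (h2 : y ∉ TT D O f τ δ r) :
    y ∉ SS D O f τ δ r := by
  rintro (h3 | h3)
  · exact h2 h3
  · exact h3 (mem_ball_zero_iff.2 h1)

theorem pr_cont : Continuous (pr q) := (pr q).continuous

theorem lst_cont : Continuous (lst q) := (lst q).continuous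

theorem isOpen_pr : IsOpen {w : Cm (q + 1) | ‖pr q w‖ < δ} :=
  isOpen_lt (pr q).continuous.norm continuous_const

theorem norm_Q₀_le [SecondCountableTopology M] (h : Cov D O f τ δ r) : ∃ d : ℕ,
    ∀ w : Cm (q + 1), pr q w ∉ SS D O f τ δ r → ‖h.Q₀ w‖ ≤ (‖lst q w‖ + r) ^ d := by
  obtain ⟨d, hd⟩ := h.exists_sections
  refine ⟨d, fun w hw => ?_⟩
  obtain ⟨U, s, hUo, hyU, -, h1, -, h3⟩ := hd _ hw
  rw [h3 w hyU, norm_prod]
  calc ∏ k, ‖lst q w - τ (s k (pr q w)).1‖ ≤ ∏ _k : Fin d, (‖lst q w‖ + r) := by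
        refine Finset.prod_le_prod (fun _ _ => norm_nonneg _) fun k _ => ?_
        refine (norm_sub_le _ _).trans ?_
        have := (s k (pr q w)).2.2.2.2.le
        linarith
    _ = (‖lst q w‖ + r) ^ d := by simp

/-- The extension of the polynomial. -/
theorem exists_Q [SecondCountableTopology M] (h : Cov D O f τ δ r) : ∃ Q : Cm (q + 1) → ℂ,
    (∀ w, ‖pr q w‖ < δ → AnalyticAt ℂ Q w) ∧
    ∀ w, ‖pr q w‖ < δ → pr q w ∉ TT D O f τ δ r → Q w = h.Q₀ w := by
  obtain ⟨d, hd⟩ := h.exists_sections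
  obtain ⟨d', hd'⟩ := h.norm_Q₀_le
  have hTc := h.T_closed
  obtain ⟨Q, hQ, hQe⟩ := ext_open (U := {w : Cm (q + 1) | ‖pr q w‖ < δ}) isOpen_pr
    (T := pr q ⁻¹' TT D O f τ δ r) (hTc.preimage (pr q).continuous) (sthin_preimage h.T_sthin)
    (Q₀ := h.Q₀) (by
      intro w hw hwT
      obtain ⟨U, s, hUo, hyU, -, h1, -, h3⟩ := hd _ (h.notMem_S hw hwT)
      have h4 : h.Q₀ =ᶠ[𝓝 w] fun w => ∏ k, (lst q w - τ (s k (pr q w)).1) := by
        filter_upwards [(pr q).continuous.continuousAt.eventually (hUo.mem_nhds hyU)] with w' hw'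
        exact h3 w' hw'
      refine AnalyticAt.congr ?_ h4.symm
      refine Finset.analyticAt_fun_prod _ fun k _ => ?_
      refine ((lst q).analyticAt w).fun_sub ?_
      exact AnalyticAt.fun_comp (g := fun y => τ (s k y).1) (f := pr q) (h1 k _ hyU).1
        ((pr q).analyticAt w)) (by
      intro w hw
      refine ⟨(‖lst q w‖ + 1 + r) ^ d', ?_⟩
      have h1 : ∀ᶠ z in 𝓝 w, ‖lst q z‖ < ‖lst q w‖ + 1 :=
        (lst q).continuous.norm.continuousAt.eventually_lt_const (by simp)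
      filter_upwards [h1, isOpen_pr.mem_nhds hw] with z hz hz2 hzT
      refine (hd' z (h.notMem_S hz2 hzT)).trans ?_
      have hr := h.r0
      gcongr)
  exact ⟨Q, hQ, fun w hw hwT => hQe w hw hwT⟩

/-- The map `(f, τ)`. -/
def G (f : M → Cm q) (τ : M → ℂ) (x : M) : Cm (q + 1) := Fin.snoc (f x) (τ x)

@[simp] theorem pr_G (f : M → Cm q) (τ : M → ℂ) (x : M) : pr q (G f τ x) = f x := by
  funext i
  simp [G]

@[simp] theorem lst_G (f : M → Cm q) (τ : M → ℂ) (x : M) : lst q (G f τ x) = τ x := by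
  simp [G]

theorem ext_pr {w w' : Cm (q + 1)} (h1 : pr q w = pr q w') (h2 : lst q w = lst q w') : w = w' := by
  funext i
  refine Fin.lastCases ?_ (fun j => ?_) i
  · exact h2
  · exact congrFun h1 j

theorem G_cont {f : M → Cm q} {τ : M → ℂ} {s : Set M} (hf : ContinuousOn f s)
    (hτ : ContinuousOn τ s) : ContinuousOn (G f τ) s := by
  refine continuousOn_pi.2 fun i => ?_
  refine Fin.lastCases ?_ (fun j => ?_) i
  · simpa [G] using hτ
  · simpa [G] using (continuousOn_pi.1 hf j)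

theorem G_contAt {f : M → Cm q} {τ : M → ℂ} {x : M} (hf : ContinuousAt f x)
    (hτ : ContinuousAt τ x) : ContinuousAt (G f τ) x := by
  refine continuousAt_pi.2 fun i => ?_
  refine Fin.lastCases ?_ (fun j => ?_) i
  · simpa [G] using hτ
  · simpa [G] using (continuousAt_pi.1 hf j)

theorem zero_of_mem [SecondCountableTopology M] (h : Cov D O f τ δ r) {x : M} (hx : x ∈ D)
    (hxO : x ∈ O) (h1 : ‖f x‖ < δ) (h2 : ‖τ x‖ < r) (h3 : f x ∉ TT D O f τ δ r) :
    h.Q₀ (G f τ x) = 0 := by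
  obtain ⟨d, hd⟩ := h.exists_sections
  obtain ⟨U, s, hUo, hyU, -, h4, h5, h6⟩ := hd _ (h.notMem_S h1 h3)
  rw [h6 _ (by rw [pr_G]; exact hyU), pr_G, lst_G]
  obtain ⟨k, hk⟩ := h5 ⟨x, hx, hxO, h1, h2⟩ hyU
  refine Finset.prod_eq_zero (Finset.mem_univ k) ?_
  have h7 : (s k (f x)).1 = x := by
    rw [← hk]
  rw [h7, sub_self]

/-- **The local equation of the image of `D`.** -/
theorem main [SecondCountableTopology M] (h : Cov D O f τ δ r) : ∃ Q : Cm (q + 1) → ℂ,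
    (∀ w, ‖pr q w‖ < δ → AnalyticAt ℂ Q w) ∧
    (∀ w, ‖pr q w‖ < δ → ‖lst q w‖ < r →
      (Q w = 0 ↔ ∃ x ∈ D, x ∈ O ∧ G f τ x = w)) ∧ ¬ ∀ᶠ w in 𝓝 0, Q w = 0 := by
  obtain ⟨Q, hQ, hQe⟩ := h.exists_Q
  obtain ⟨d, hd⟩ := h.exists_sections
  have hTd : Dense (TT D O f τ δ r)ᶜ := dense_compl h.T_closed h.T_sthin
  have hTd' : Dense (pr q ⁻¹' TT D O f τ δ r)ᶜ :=
    dense_compl (h.T_closed.preimage (pr q).continuous) (sthin_preimage h.T_sthin)
  have hr := h.r0
  have hδ := h.δ0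
  refine ⟨Q, hQ, fun w hw1 hw2 => ⟨fun hw0 => ?_, ?_⟩, fun hcon => ?_⟩
  · -- zeros of `Q` are in the image
    have hcl : IsClosed (G f τ '' KK D O f τ δ r) :=
      (IsCompact.image_of_continuousOn h.cpt (G_cont h.fcont h.τcont)).isClosed
    by_cases hwG : w ∈ G f τ '' KK D O f τ δ r
    · obtain ⟨x, hx, hxw⟩ := hwG
      exact ⟨x, hx.1, hx.2.1, hxw⟩
    exfalso
    obtain ⟨ε, hε, hball⟩ := Metric.isOpen_iff.1 hcl.isOpen_compl w hwG
    have h1 : ∃ᶠ w' in 𝓝 w, w' ∉ pr q ⁻¹' TT D O f τ δ r :=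
      mem_closure_iff_frequently.1 (hTd' w)
    have h2 : ∀ᶠ w' in 𝓝 w, w' ∈ ball w (ε / 2) := ball_mem_nhds _ (by positivity)
    have h3 : ∀ᶠ w' in 𝓝 w, ‖Q w'‖ < (ε / 2) ^ d := by
      refine (hQ w hw1).continuousAt.norm.eventually_lt_const ?_
      simp only [hw0, norm_zero]
      positivity
    obtain ⟨w', h4, h5, h6, h7⟩ := (h1.and_eventually (h2.and (h3.and
      (isOpen_pr.mem_nhds hw1)))).exists
    obtain ⟨U, s, hUo, hyU, -, h8, -, h10⟩ := hd _ (h.notMem_S h7 h4)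
    rw [hQe w' h7 h4, h10 w' hyU, norm_prod] at h6
    refine absurd h6 (not_lt.2 ?_)
    calc (ε / 2) ^ d = ∏ _k : Fin d, (ε / 2) := by
          rw [Finset.prod_const, Finset.card_univ, Fintype.card_fin]
      _ ≤ _ := Finset.prod_le_prod (fun _ _ => by positivity) fun k _ => ?_
    set x := s k (pr q w') with hx
    have hxf : f x.1 = pr q w' := (h8 k _ hyU).2
    have h11 : G f τ x.1 ∈ G f τ '' KK D O f τ δ r :=
      ⟨x.1, ⟨x.2.1, x.2.2.1, x.2.2.2.1.le, x.2.2.2.2.le⟩, rfl⟩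
    have h12 : ε ≤ dist (G f τ x.1) w := by
      by_contra hcon
      push Not at hcon
      exact hball (mem_ball.2 hcon) h11
    have h13 : dist (G f τ x.1) w' ≤ ‖lst q w' - τ x.1‖ := by
      rw [dist_pi_le_iff (norm_nonneg _)]
      intro i
      refine Fin.lastCases ?_ (fun j => ?_) i
      · rw [dist_comm, dist_eq_norm]
        have e1 : G f τ x.1 (Fin.last q) = τ x.1 := lst_G f τ x.1
        rw [e1]
        exact le_rfl
      · have e1 : G f τ x.1 j.castSucc = w' j.castSucc := by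
          have e2 := congrFun (pr_G f τ x.1) j
          rw [pr_apply] at e2
          rw [e2, hxf, pr_apply]
        rw [e1, dist_self]
        exact norm_nonneg _
    have h14 : dist w' w < ε / 2 := mem_ball.1 h5
    have h15 := dist_triangle (G f τ x.1) w' w
    linarith
  · -- the image is contained in the zeros
    rintro ⟨x, hx, hxO, rfl⟩
    rw [pr_G] at hw1
    rw [lst_G] at hw2
    by_contra hne
    have hGc : ContinuousAt (G f τ) x := G_contAt (h.hf x hxO).continuousAt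
      (h.hτ x hxO).continuousAt
    have hQc : ContinuousAt (fun z => Q (G f τ z)) x :=
      ContinuousAt.comp (g := Q) (hQ _ (by rw [pr_G]; exact hw1)).continuousAt hGc
    obtain ⟨N, hN, hNo, hxN⟩ := eventually_nhds_iff.1
      ((hQc.eventually_ne hne).and (h.near hxO hw1 hw2))
    obtain ⟨x', hx'N, hx'D, hx'O, hE⟩ := h.dense N hNo ⟨x, hxN, hx, hxO⟩
    obtain ⟨s, hs1, hs2, hs3, -⟩ := hE.sec (h.hf _ hx'O) hx'D
    have hsc : ContinuousAt s (f x') := ContMDiffAt.continuousAt hs1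
    have hst : Tendsto s (𝓝 (f x')) (𝓝 x') := by
      have := hsc.tendsto
      rwa [hs2] at this
    obtain ⟨y, hy1, hy2, hy3⟩ := ((mem_closure_iff_frequently.1 (hTd (f x'))).and_eventually
      (hs3.and (hst.eventually (hNo.mem_nhds hx'N)))).exists
    obtain ⟨h1, h2, h3, h4⟩ := hN _ hy3
    apply h1
    rw [hQe _ (by rw [pr_G]; exact h3) (by rw [pr_G, hy2.1]; exact hy1)]
    exact h.zero_of_mem hy2.2 h2 h3 h4 (by rw [hy2.1]; exact hy1)
  · -- `Q` is not zero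
    obtain ⟨ε, hε, hball⟩ := Metric.eventually_nhds_iff_ball.1 hcon
    set ε' := min ε δ with hε'
    have hε'0 : 0 < ε' := lt_min hε hδ
    have hb0 : ∀ᶠ y in 𝓝 (0 : Cm q), y ∈ ball (0 : Cm q) ε' := ball_mem_nhds _ hε'0
    obtain ⟨y, hy1, hy2⟩ := ((mem_closure_iff_frequently.1 (hTd 0)).and_eventually hb0).exists
    rw [mem_ball_zero_iff] at hy2
    have hyδ : ‖y‖ < δ := hy2.trans_le (min_le_right _ _)
    obtain ⟨U, s, hUo, hyU, -, h4, -, h6⟩ := hd _ (h.notMem_S hyδ hy1)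
    have hinf : (ball (0 : ℂ) ε').Infinite := infinite_of_mem_nhds 0 (ball_mem_nhds _ hε'0)
    apply hinf
    refine (Set.finite_range fun k => τ (s k y).1).subset fun t ht => ?_
    rw [mem_ball_zero_iff] at ht
    set w : Cm (q + 1) := Fin.snoc y t with hw
    have hwp : pr q w = y := by funext i; simp [hw]
    have hwl : lst q w = t := by simp [hw]
    have hwb : w ∈ ball (0 : Cm (q + 1)) ε := by
      rw [mem_ball_zero_iff, pi_norm_lt_iff hε]
      intro i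
      refine Fin.lastCases ?_ (fun j => ?_) i
      · have : w (Fin.last q) = t := hwl
        rw [this]
        exact ht.trans_le (min_le_left _ _)
      · have : w j.castSucc = y j := congrFun hwp j
        rw [this]
        exact ((norm_le_pi_norm y j).trans_lt hy2).trans_le (min_le_left _ _)
    have h7 := hball w hwb
    rw [hQe w (by rw [hwp]; exact hyδ) (by rw [hwp]; exact hy1), h6 w (by rw [hwp]; exact hyU),
      hwp, hwl, Finset.prod_eq_zero_iff] at h7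
    obtain ⟨k, -, hk⟩ := h7
    exact ⟨k, (sub_eq_zero.1 hk).symm⟩

end Cov

end Vale.Agent.P281.H349.Gen
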