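import Vale.Agent.P281.H349.Gen.Cover

/-! P281, project T-V, neat models, block V13d (helper349): choice of the direction of projection; the
image of a hypersurface under a map which is proper near `0` is a hypersurface near `0`. -/

open Set Filter Metric Vale.Agent.P281 Vale.Agent.P281.H713 Vale.Agent.P281.H64
open Vale.Agent.P281.H150.Gen
open Vale.Agent.P281.H64.Thin (IsThinSet)
open scoped Topology ContDiff Manifold

set_option linter.unusedSectionVars false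

noncomputable section

namespace Vale.Agent.P281.H349.Gen

variable {q : ℕ}

/-- The inclusion `ℂ^q → ℂ^(q+1)`. -/
def emb (q : ℕ) : Cm q →L[ℂ] Cm (q + 1) :=
  ContinuousLinearMap.pi fun i =>
    Fin.lastCases (motive := fun _ => Cm q →L[ℂ] ℂ) 0 (fun j => ContinuousLinearMap.proj j) i

/-- The last vector. -/
def el (q : ℕ) : Cm (q + 1) := Pi.single (Fin.last q) 1

@[simp] theorem pr_emb (a : Cm q) : pr q (emb q a) = a := by
  funext i
  simp [emb]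

@[simp] theorem lst_emb (a : Cm q) : lst q (emb q a) = 0 := by
  simp [emb]

@[simp] theorem pr_el : pr q (el q) = 0 := by
  funext i
  simp [el]

@[simp] theorem lst_el : lst q (el q) = 1 := by
  simp [el]

theorem decomp (w : Cm (q + 1)) : w = emb q (pr q w) + lst q w • el q := by
  refine Cov.ext_pr ?_ ?_
  · rw [map_add, map_smul, pr_emb, pr_el, smul_zero, add_zero]
  · rw [map_add, map_smul, lst_emb, lst_el, zero_add, smul_eq_mul, mul_one]

/-- The projection in the direction `(a, 1)`. -/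
def Lin (a : Cm q) : Cm (q + 1) →L[ℂ] Cm q := pr q - (lst q).smulRight a

@[simp] theorem Lin_apply (a : Cm q) (w : Cm (q + 1)) : Lin a w = pr q w - lst q w • a := rfl

/-- The change of coordinates. -/
def Ta (a : Cm q) : Cm (q + 1) →L[ℂ] Cm (q + 1) :=
  ContinuousLinearMap.id ℂ _ - (lst q).smulRight (emb q a)

/-- The inverse change of coordinates. -/
def Ta' (a : Cm q) : Cm (q + 1) →L[ℂ] Cm (q + 1) :=
  ContinuousLinearMap.id ℂ _ + (lst q).smulRight (emb q a)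

theorem Ta_apply (a : Cm q) (w : Cm (q + 1)) : Ta a w = w - lst q w • emb q a := rfl

theorem Ta'_apply (a : Cm q) (w : Cm (q + 1)) : Ta' a w = w + lst q w • emb q a := rfl

@[simp] theorem pr_Ta (a : Cm q) (w : Cm (q + 1)) : pr q (Ta a w) = Lin a w := by
  rw [Ta_apply, map_sub, map_smul, pr_emb, Lin_apply]

@[simp] theorem lst_Ta (a : Cm q) (w : Cm (q + 1)) : lst q (Ta a w) = lst q w := by
  rw [Ta_apply, map_sub, map_smul, lst_emb, smul_zero, sub_zero]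

theorem Ta'_Ta (a : Cm q) (w : Cm (q + 1)) : Ta' a (Ta a w) = w := by
  rw [Ta'_apply, lst_Ta, Ta_apply, sub_add_cancel]

theorem Ta_Ta' (a : Cm q) (w : Cm (q + 1)) : Ta a (Ta' a w) = w := by
  have h1 : lst q (Ta' a w) = lst q w := by
    rw [Ta'_apply, map_add, map_smul, lst_emb, smul_zero, add_zero]
  rw [Ta_apply, h1, Ta'_apply, add_sub_cancel_right]

/-- The directions on which a linear form vanishes. -/
theorem thin_dir {l : Cm (q + 1) →L[ℂ] ℂ} (hl : l ≠ 0) :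
    IsThinSet (Cm q) {a : Cm q | l (emb q a + el q) = 0} := by
  have hg : ∀ a, HasFDerivAt (fun a : Cm q => l (emb q a + el q)) (l.comp (emb q)) a := by
    intro a
    exact HasFDerivAt.comp (g := l) a l.hasFDerivAt ((emb q).hasFDerivAt.add_const (el q))
  refine ⟨?_, fun y => ⟨fun a => l (emb q a + el q), ?_, fun hcon => hl ?_, ?_⟩⟩
  · exact isClosed_eq (by fun_prop) continuous_const
  · apply holAt_of_analyticAt
    exact (l.analyticAt _).fun_comp (((emb q).analyticAt y).fun_add analyticAt_const)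
  · have h1 : (fun a : Cm q => l (emb q a + el q)) =ᶠ[𝓝 y] fun _ => 0 := hcon
    have h2 : l.comp (emb q) = 0 := by
      rw [← (hg y).fderiv, h1.fderiv_eq]
      simp
    have h3 : ∀ v, l (emb q v) = 0 := fun v => congrArg (fun T : Cm q →L[ℂ] ℂ => T v) h2
    have h4 : l (el q) = 0 := by
      have h5 : l (emb q y + el q) = 0 := hcon.self_of_nhds
      rwa [map_add, h3, zero_add] at h5
    refine ContinuousLinearMap.ext fun w => ?_
    rw [decomp w, map_add, map_smul, h3, h4, smul_zero, add_zero]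
    rfl
  · exact Eventually.of_forall fun z hz => hz

variable {M : Type} [TopologicalSpace M] [ChartedSpace (Cm (q + 1)) M]
  [IsManifold 𝓘(ℂ, Cm (q + 1)) ω M]

theorem holV_lin {V V' : Type} [NormedAddCommGroup V] [NormedSpace ℂ V] [NormedAddCommGroup V']
    [NormedSpace ℂ V'] {F : M → V} {x : M} (hF : HolV (Cm (q + 1)) F x) (L : V →L[ℂ] V') :
    HolV (Cm (q + 1)) (fun z => L (F z)) x ∧
      ∀ ξ, dV (Cm (q + 1)) (fun z => L (F z)) x ξ = L (dV (Cm (q + 1)) F x ξ) := by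
  refine ⟨HolV.comp_contDiff (G := L) L.contDiff.contDiffAt hF, fun ξ => ?_⟩
  have h1 := dV_comp_contDiff (G := L) L.contDiff.contDiffAt hF
  rw [h1, L.fderiv]
  rfl

/-- A good point for the general projections. -/
theorem etl_of_dir {D : Set M} {F : M → Cm (q + 1)} {x : M} (hF : HolV (Cm (q + 1)) F x)
    (hinj : ∀ ξ, dV (Cm (q + 1)) F x ξ = 0 → ξ = 0) {g : M → ℂ}
    (hg : IsLocalEq (Cm (q + 1)) D g x) (hdg : dV (Cm (q + 1)) g x ≠ 0) :
    ∃ B : Set (Cm q), SThin (Cm q) B ∧ ∀ a ∉ B, Etl D (fun z => Lin a (F z)) x := by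
  have hbij : Function.Bijective ((dV (Cm (q + 1)) F x : Cm (q + 1) →L[ℂ] Cm (q + 1)) :
      Cm (q + 1) →ₗ[ℂ] Cm (q + 1)) := by
    have h1 : Function.Injective ((dV (Cm (q + 1)) F x : Cm (q + 1) →L[ℂ] Cm (q + 1)) :
        Cm (q + 1) →ₗ[ℂ] Cm (q + 1)) := (injective_iff_map_eq_zero _).2 hinj
    exact ⟨h1, LinearMap.injective_iff_surjective.1 h1⟩
  let e : Cm (q + 1) ≃L[ℂ] Cm (q + 1) := (LinearEquiv.ofBijective _ hbij).toContinuousLinearEquiv
  have he : ∀ ξ, e ξ = dV (Cm (q + 1)) F x ξ := fun ξ => rfl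
  set l : Cm (q + 1) →L[ℂ] ℂ := (dV (Cm (q + 1)) g x : Cm (q + 1) →L[ℂ] ℂ).comp
    (e.symm : Cm (q + 1) →L[ℂ] Cm (q + 1)) with hl
  have hle : ∀ ξ, l (e ξ) = dV (Cm (q + 1)) g x ξ := by
    intro ξ
    simp [hl]
  have hl0 : l ≠ 0 := by
    intro h0
    apply hdg
    refine ContinuousLinearMap.ext fun ξ => ?_
    rw [← hle, h0]
    rfl
  refine ⟨_, SThin.of_thin (thin_dir hl0) subset_rfl, fun a ha => ⟨g, hg, fun ξ h1 h2 => ?_⟩⟩
  rw [(holV_lin hF (Lin a)).2, ← he, Lin_apply, sub_eq_zero] at h1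
  rw [← hle, decomp (e ξ), h1, map_smul, ← smul_add, map_smul, smul_eq_mul, mul_eq_zero] at h2
  have h3 : lst q (e ξ) = 0 := h2.resolve_right ha
  have h4 : e ξ = 0 := by
    rw [decomp (e ξ), h1, h3, zero_smul, map_zero, zero_smul, add_zero]
  exact hinj ξ (by rw [← he, h4])

variable [T2Space M] [SecondCountableTopology M]

/-- The hypotheses of the local theorem. -/
structure Pre (D O : Set M) (F : M → Cm (q + 1)) : Prop where
  loc : ∀ x, ∃ g, IsLocalEq (Cm (q + 1)) D g x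
  opn : IsOpen O
  hF : ∀ x ∈ O, HolV (Cm (q + 1)) F x
  cpt : ∃ ρ > 0, IsCompact {x | x ∈ D ∧ x ∈ O ∧ ‖F x‖ ≤ ρ}
  dense : ∀ N : Set M, IsOpen N → (∃ x ∈ N, x ∈ D ∧ x ∈ O) → ∃ x ∈ N, x ∈ D ∧ x ∈ O ∧
    ∃ g, IsLocalEq (Cm (q + 1)) D g x ∧ dV (Cm (q + 1)) g x ≠ 0 ∧
      ∀ ξ, dV (Cm (q + 1)) F x ξ = 0 → ξ = 0

/-- The slope. -/
def slope (F : M → Cm (q + 1)) (x : M) : Cm q := (lst q (F x))⁻¹ • pr q (F x)

theorem holV_slope {F : M → Cm (q + 1)} {x : M} (hF : HolV (Cm (q + 1)) F x)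
    (h0 : lst q (F x) ≠ 0) : HolV (Cm (q + 1)) (slope F) x := by
  have h1 : ContDiffAt ℂ ω (fun w : Cm (q + 1) => (lst q w)⁻¹ • pr q w) (F x) :=
    ((lst q).contDiff.contDiffAt.inv h0).smul (pr q).contDiff.contDiffAt
  exact HolV.comp_contDiff (G := fun w : Cm (q + 1) => (lst q w)⁻¹ • pr q w) h1 hF

/-- Choice of the direction. -/
theorem Pre.exists_dir {D O : Set M} {F : M → Cm (q + 1)} (h : Pre D O F) : ∃ a : Cm q,
    (∀ x ∈ O, x ∈ D → lst q (F x) ≠ 0 → slope F x = a → Etl D (slope F) x) ∧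
    ∀ N : Set M, IsOpen N → (∃ x ∈ N, x ∈ D ∧ x ∈ O) → ∃ x ∈ N, x ∈ D ∧ x ∈ O ∧
      Etl D (fun z => Lin a (F z)) x := by
  have hA : SThin (Cm q) (slope F '' {x | (x ∈ O ∧ lst q (F x) ≠ 0) ∧ x ∈ D ∧
      ¬ Etl D (slope F) x}) := by
    refine SThin.image_of_local fun z hz => ?_
    obtain ⟨N, hN, hS⟩ := sthin_loc h.loc (holV_slope (h.hF z hz.1.1) hz.1.2)
    exact ⟨N, hN, hS.mono (image_mono fun y hy => ⟨hy.1.2, hy.2⟩)⟩
  have hB : ∀ N : TopologicalSpace.countableBasis M, ∃ B : Set (Cm q), SThin (Cm q) B ∧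
      ∀ a ∉ B, (∃ x ∈ (N : Set M), x ∈ D ∧ x ∈ O) → ∃ x ∈ (N : Set M), x ∈ D ∧ x ∈ O ∧
        Etl D (fun z => Lin a (F z)) x := by
    intro N
    by_cases hN : ∃ x ∈ (N : Set M), x ∈ D ∧ x ∈ O
    · obtain ⟨x, hxN, hxD, hxO, g, hg, hdg, hinj⟩ := h.dense N
        (TopologicalSpace.isOpen_of_mem_countableBasis N.2) hN
      obtain ⟨B, hB, hBa⟩ := etl_of_dir (h.hF x hxO) hinj hg hdg
      exact ⟨B, hB, fun a ha _ => ⟨x, hxN, hxD, hxO, hBa a ha⟩⟩
    · exact ⟨∅, SThin.empty, fun a _ h1 => absurd h1 hN⟩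
  choose B hB1 hB2 using hB
  have : Countable (TopologicalSpace.countableBasis M) :=
    (TopologicalSpace.countable_countableBasis M).to_subtype
  obtain ⟨a, ha⟩ := exists_notMem (hA.union (SThin.iUnion hB1))
  refine ⟨a, fun x hxO hxD hx0 hxa => ?_, fun N hN ⟨x, hxN, hxD, hxO⟩ => ?_⟩
  · by_contra hcon
    exact ha (Or.inl ⟨x, ⟨⟨hxO, hx0⟩, hxD, hcon⟩, hxa⟩)
  · obtain ⟨b, hb, hxb, hbN⟩ :=
      (TopologicalSpace.isBasis_countableBasis M).exists_subset_of_mem_open hxN hN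
    obtain ⟨y, hyb, hy⟩ := hB2 ⟨b, hb⟩ a (fun h1 => ha (Or.inr (mem_iUnion.2 ⟨⟨b, hb⟩, h1⟩)))
      ⟨x, hxb, hxD, hxO⟩
    exact ⟨y, hbN hyb, hy⟩

theorem norm_le_of {w : Cm (q + 1)} {a : Cm q} {δ r : ℝ} (h1 : ‖Lin a w‖ ≤ δ)
    (h2 : ‖lst q w‖ ≤ r) (hδ : 0 ≤ δ) (hr : 0 ≤ r) : ‖w‖ ≤ δ + r * (1 + ‖a‖) := by
  have ha := norm_nonneg a
  have h3 : ‖pr q w‖ ≤ δ + r * ‖a‖ := by
    have e1 : pr q w = Lin a w + lst q w • a := by
      rw [Lin_apply, sub_add_cancel]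
    rw [e1]
    refine (norm_add_le _ _).trans ?_
    rw [norm_smul]
    gcongr
  rw [pi_norm_le_iff_of_nonneg (by positivity)]
  intro i
  refine Fin.lastCases ?_ (fun j => ?_) i
  · have : ‖w (Fin.last q)‖ ≤ r := h2
    nlinarith
  · have e2 : ‖w j.castSucc‖ ≤ ‖pr q w‖ := norm_le_pi_norm (pr q w) j
    nlinarith

/-- **The image of a hypersurface is a hypersurface** (local form). -/
theorem Pre.main {D O : Set M} {F : M → Cm (q + 1)} (h : Pre D O F) :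
    ∃ Q : Cm (q + 1) → ℂ, AnalyticAt ℂ Q 0 ∧ (¬ ∀ᶠ w in 𝓝 0, Q w = 0) ∧
      ∀ᶠ w in 𝓝 0, (Q w = 0 ↔ ∃ x ∈ D, x ∈ O ∧ F x = w) := by
  obtain ⟨a, ha1, ha2⟩ := h.exists_dir
  obtain ⟨ρ, hρ, hKρ⟩ := h.cpt
  -- the line meets the image in a countable set
  set E : Set M := {x | x ∈ O ∧ x ∈ D ∧ lst q (F x) ≠ 0 ∧ slope F x = a} with hE
  have hEc : E.Countable := by
    have h1 : ∀ x ∈ E, ∃ N ∈ 𝓝 x, ∀ z ∈ N, z ∈ E → z = x := by
      rintro x ⟨hxO, hxD, hx0, hxa⟩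
      obtain ⟨s, -, hs2, -, hs4⟩ := (ha1 x hxO hxD hx0 hxa).sec
        (holV_slope (h.hF x hxO) hx0) hxD
      refine ⟨_, hs4, fun z hz hzE => ?_⟩
      have h2 : s (slope F z) = z := hz hzE.2.1
      rw [← h2, hzE.2.2.2, ← hxa, hs2]
    choose! N hN hN2 using h1
    obtain ⟨t, ht, htc, hcov⟩ := TopologicalSpace.countable_cover_nhdsWithin
      (f := N) (s := E) (fun x hx => mem_nhdsWithin_of_mem_nhds (hN x hx))
    refine htc.mono fun z hz => ?_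
    obtain ⟨x, hx, hzx⟩ := mem_iUnion₂.1 (hcov hz)
    rwa [hN2 x (ht hx) z hzx hz]
  -- choice of `r`
  obtain ⟨r, hr0, hr1, hrR⟩ : ∃ r > 0, r * (1 + ‖a‖) ≤ ρ / 2 ∧
      ∀ x ∈ E, ‖lst q (F x)‖ ≠ r := by
    have ha0 : 0 < 1 + ‖a‖ := by positivity
    have h1 : Dense ((fun x => ‖lst q (F x)‖) '' E)ᶜ := (hEc.image _).dense_compl ℝ
    obtain ⟨r, hr, hr2⟩ := h1.exists_mem_open (isOpen_Ioo (a := (0 : ℝ))
      (b := ρ / 2 / (1 + ‖a‖))) ⟨ρ / 2 / (1 + ‖a‖) / 2, by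
        constructor
        · positivity
        · exact half_lt_self (by positivity)⟩
    refine ⟨r, hr2.1, ?_, fun x hx hxr => hr ⟨x, hx, hxr⟩⟩
    exact ((lt_div_iff₀ ha0).1 hr2.2).le
  -- continuity
  have hLc : ContinuousOn (fun x => Lin a (F x)) {x | x ∈ D ∧ x ∈ O ∧ ‖F x‖ ≤ ρ} := fun x hx =>
    ((holV_lin (h.hF x hx.2.1) (Lin a)).1.continuousAt).continuousWithinAt
  have hlc : ContinuousOn (fun x => lst q (F x)) {x | x ∈ D ∧ x ∈ O ∧ ‖F x‖ ≤ ρ} := fun x hx =>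
    ((holV_lin (h.hF x hx.2.1) (lst q)).1.continuousAt).continuousWithinAt
  have hcomp : ∀ (δ : ℝ) (C : Set ℝ), IsClosed C → C ⊆ Iic r → δ ≤ ρ / 2 → 0 ≤ δ →
      IsCompact {x | x ∈ D ∧ x ∈ O ∧ ‖Lin a (F x)‖ ≤ δ ∧ ‖lst q (F x)‖ ∈ C} := by
    intro δ C hC hCr hδ hδ0
    have e1 : {x | x ∈ D ∧ x ∈ O ∧ ‖Lin a (F x)‖ ≤ δ ∧ ‖lst q (F x)‖ ∈ C} =
        {x | x ∈ D ∧ x ∈ O ∧ ‖F x‖ ≤ ρ} ∩ (fun x => (‖Lin a (F x)‖, ‖lst q (F x)‖)) ⁻¹'
          (Iic δ ×ˢ C) := by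
      ext x
      constructor
      · rintro ⟨h1, h2, h3, h4⟩
        refine ⟨⟨h1, h2, ?_⟩, h3, h4⟩
        have := norm_le_of h3 (hCr h4) hδ0 hr0.le
        linarith
      · rintro ⟨⟨h1, h2, -⟩, h3, h4⟩
        exact ⟨h1, h2, h3, h4⟩
    rw [e1]
    refine hKρ.of_isClosed_subset ?_ inter_subset_left
    exact (hLc.norm.prodMk hlc.norm).preimage_isClosed_of_isClosed hKρ.isClosed
      (isClosed_Iic.prod hC)
  -- choice of `δ`
  obtain ⟨δ, hδ0, hδ1, hδ2⟩ : ∃ δ > 0, δ ≤ ρ / 2 ∧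
      ∀ x ∈ D, x ∈ O → ‖Lin a (F x)‖ ≤ δ → ‖lst q (F x)‖ ≠ r := by
    have hK1 := hcomp (ρ / 2) {r} isClosed_singleton (by simp) le_rfl (by positivity)
    have hcl : IsClosed ((fun x => ‖Lin a (F x)‖) '' {x | x ∈ D ∧ x ∈ O ∧
        ‖Lin a (F x)‖ ≤ ρ / 2 ∧ ‖lst q (F x)‖ ∈ ({r} : Set ℝ)}) := by
      refine (hK1.image_of_continuousOn ?_).isClosed
      intro x hx
      exact ((holV_lin (h.hF x hx.2.1) (Lin a)).1.continuousAt).norm.continuousWithinAt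
    have h0 : (0 : ℝ) ∉ (fun x => ‖Lin a (F x)‖) '' {x | x ∈ D ∧ x ∈ O ∧
        ‖Lin a (F x)‖ ≤ ρ / 2 ∧ ‖lst q (F x)‖ ∈ ({r} : Set ℝ)} := by
      rintro ⟨x, ⟨h1, h2, -, h4⟩, h5⟩
      have h4' : ‖lst q (F x)‖ = r := h4
      have h6 : lst q (F x) ≠ 0 := by
        intro h7
        rw [h7, norm_zero] at h4'
        exact hr0.ne h4'
      refine hrR x ⟨h2, h1, h6, ?_⟩ h4'
      have h7 : Lin a (F x) = 0 := norm_eq_zero.1 h5
      rw [Lin_apply, sub_eq_zero] at h7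
      rw [slope, h7, smul_smul, inv_mul_cancel₀ h6, one_smul]
    obtain ⟨ε, hε, hball⟩ := Metric.isOpen_iff.1 hcl.isOpen_compl 0 h0
    refine ⟨min (ρ / 2) (ε / 2), by positivity, min_le_left _ _, fun x hxD hxO h1 h2 => ?_⟩
    have h3 : ‖Lin a (F x)‖ ∈ ball (0 : ℝ) ε := by
      rw [mem_ball_zero_iff, norm_norm]
      have := h1.trans (min_le_right _ _)
      linarith
    exact hball h3 ⟨x, ⟨hxD, hxO, h1.trans (min_le_left _ _), h2⟩, rfl⟩
  have hcov : Cov D O (fun x => Lin a (F x)) (fun x => lst q (F x)) δ r :=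
    { loc := h.loc
      opn := h.opn
      hf := fun x hx => (holV_lin (h.hF x hx) (Lin a)).1
      hτ := fun x hx => (holV_lin (h.hF x hx) (lst q)).1
      δ0 := hδ0
      r0 := hr0
      cpt := hcomp δ (Iic r) isClosed_Iic Subset.rfl hδ1 hδ0.le
      bd := hδ2
      dense := ha2 }
  obtain ⟨Q, hQ, hQz, hQ0⟩ := hcov.main
  have hG : ∀ x, Cov.G (fun x => Lin a (F x)) (fun x => lst q (F x)) x = Ta a (F x) := by
    intro x
    refine Cov.ext_pr ?_ ?_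
    · rw [Cov.pr_G, pr_Ta]
    · rw [Cov.lst_G, lst_Ta]
  have hT0 : Tendsto (Ta a) (𝓝 0) (𝓝 0) := by
    have := (Ta a).continuous.tendsto 0
    rwa [map_zero] at this
  have hT0' : Tendsto (Ta' a) (𝓝 0) (𝓝 0) := by
    have := (Ta' a).continuous.tendsto 0
    rwa [map_zero] at this
  refine ⟨fun w => Q (Ta a w), ?_, fun hcon => hQ0 ?_, ?_⟩
  · have h1 : AnalyticAt ℂ Q (Ta a 0) := by
      apply hQ
      rw [map_zero, map_zero, norm_zero]
      exact hδ0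
    exact AnalyticAt.fun_comp (g := Q) (f := Ta a) h1 ((Ta a).analyticAt 0)
  · filter_upwards [hT0'.eventually hcon] with w hw
    rwa [Ta_Ta'] at hw
  · have h1 : ∀ᶠ w in 𝓝 (0 : Cm (q + 1)), ‖pr q w‖ < δ := by
      refine (pr q).continuous.norm.continuousAt.eventually_lt_const ?_
      simp only [map_zero, norm_zero]
      exact hδ0
    have h2 : ∀ᶠ w in 𝓝 (0 : Cm (q + 1)), ‖lst q w‖ < r := by
      refine (lst q).continuous.norm.continuousAt.eventually_lt_const ?_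
      simp only [map_zero, norm_zero]
      exact hr0
    filter_upwards [hT0.eventually (h1.and h2)] with w hw
    rw [hQz _ hw.1 hw.2]
    constructor
    · rintro ⟨x, hxD, hxO, hx⟩
      refine ⟨x, hxD, hxO, ?_⟩
      rw [hG] at hx
      rw [← Ta'_Ta a (F x), hx, Ta'_Ta]
    · rintro ⟨x, hxD, hxO, rfl⟩
      exact ⟨x, hxD, hxO, hG x⟩

end Vale.Agent.P281.H349.Gen
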