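import Vale.Agent.P281.H150.Gen.Core
import Vale.Agent.P281.H383.Gen.Ext

/-! P281, project T-V, neat models, block V13d (helper349): Riemann's extension theorem across small
sets, and the complements of small sets, in open subsets of `ℂ^n`. -/

open Set Filter Metric Vale.Agent.P281 Vale.Agent.P281.H713 Vale.Agent.P281.H64
open Vale.Agent.P281.H150.Gen TopologicalSpace
open Vale.Agent.P281.H64.Thin (IsThinSet)
open Vale.Agent.P281.H64.Gen (IsSmallSet)
open scoped Topology ContDiff Manifold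

noncomputable section

namespace Vale.Agent.P281.H349.Gen

variable {n : ℕ}

theorem map_val {U : Opens (Cm n)} (y : U) :
    Filter.map (Subtype.val : U → Cm n) (𝓝 y) = 𝓝 (y : Cm n) :=
  U.isOpen.isOpenEmbedding_subtypeVal.map_nhds_eq y

theorem thin_val {U : Opens (Cm n)} {H : Set (Cm n)} (hH : IsThinSet (Cm n) H) :
    IsThinSet (Cm n) (Subtype.val ⁻¹' H : Set U) := by
  refine ⟨hH.1.preimage continuous_subtype_val, fun y => ?_⟩
  obtain ⟨g, hg, hne, hs⟩ := hH.2 (y : Cm n)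
  refine ⟨fun z => g z, contMDiffAt_subtype_iff.2 hg, fun h => hne ?_, ?_⟩
  · rw [← map_val y]
    exact h
  · rw [← map_val y] at hs
    exact hs

theorem small_val {U : Opens (Cm n)} {T : Set (Cm n)} (hTc : IsClosed T) (hT : SThin (Cm n) T) :
    IsSmallSet (Cm n) (Subtype.val ⁻¹' T : Set U) := by
  obtain ⟨H, h1, h2⟩ := hT
  refine ⟨hTc.preimage continuous_subtype_val, fun k => Subtype.val ⁻¹' (H k),
    fun k => thin_val (h1 k), ?_⟩
  rw [← preimage_iUnion]
  exact preimage_mono h2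

theorem dense_compl {T : Set (Cm n)} (hTc : IsClosed T) (hT : SThin (Cm n) T) : Dense Tᶜ :=
  H383.Gen.dense_compl_small (n := n) (X := Cm n) ⟨hTc, hT⟩

/-- A countable union of thin sets is not everything. -/
theorem exists_notMem {T : Set (Cm n)} (hT : SThin (Cm n) T) : ∃ a, a ∉ T := by
  obtain ⟨H, hH, hS⟩ := hT
  have h1 : Dense (⋂ k, (H k)ᶜ) := dense_iInter_of_isOpen_nat (fun k => (hH k).1.isOpen_compl)
    fun k => H383.Gen.dense_compl_thin (hH k)
  obtain ⟨a, ha⟩ := h1.nonempty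
  refine ⟨a, fun haT => ?_⟩
  obtain ⟨k, hk⟩ := mem_iUnion.1 (hS haT)
  exact mem_iInter.1 ha k hk

/-- Extension across a small set, in an open subset of `ℂ^n`. -/
theorem ext_open {U : Set (Cm n)} (hU : IsOpen U) {T : Set (Cm n)} (hTc : IsClosed T)
    (hT : SThin (Cm n) T) {Q₀ : Cm n → ℂ} (hQ : ∀ w ∈ U, w ∉ T → AnalyticAt ℂ Q₀ w)
    (hb : ∀ w ∈ U, ∃ C : ℝ, ∀ᶠ z in 𝓝 w, z ∉ T → ‖Q₀ z‖ ≤ C) :
    ∃ Q : Cm n → ℂ, (∀ w ∈ U, AnalyticAt ℂ Q w) ∧ ∀ w ∈ U, w ∉ T → Q w = Q₀ w := by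
  classical
  let U' : Opens (Cm n) := ⟨U, hU⟩
  obtain ⟨v, hv, hv2⟩ := H383.Gen.ext n U' (Subtype.val ⁻¹' T) (fun z => Q₀ z)
    (small_val hTc hT) (fun x hx => contMDiffAt_subtype_iff.2
      (holAt_of_analyticAt (hQ x x.2 hx))) (fun x => by
      obtain ⟨C, hC⟩ := hb x x.2
      refine ⟨C, ?_⟩
      rw [← map_val x] at hC
      exact hC)
  set Q : Cm n → ℂ := fun z => if h : z ∈ U then v ⟨z, h⟩ else 0 with hQd
  have hQv : ∀ z : U', Q z = v z := by
    intro z
    have hz : (z : Cm n) ∈ U := z.2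
    simp only [hQd]
    rw [dif_pos hz]
  refine ⟨Q, fun w hw => ?_, fun w hw hwT => ?_⟩
  · apply analyticAt_of_holAt
    have h1 : ContMDiffAt 𝓘(ℂ, Cm n) 𝓘(ℂ, ℂ) ω (fun z : U' => Q z) ⟨w, hw⟩ := by
      have h2 : (fun z : U' => Q z) = v := funext hQv
      rw [h2]
      exact hv _
    exact contMDiffAt_subtype_iff.1 h1
  · have h1 := hv2 (⟨w, hw⟩ : U') hwT
    rw [← hQv] at h1
    exact h1

/-- The complement of a small set in a connected open subset of `ℂ^n`. -/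
theorem compl_open {U : Set (Cm n)} (hU : IsOpen U) (hUc : IsPreconnected U) {T : Set (Cm n)}
    (hTc : IsClosed T) (hT : SThin (Cm n) T) : IsPreconnected (U \ T) := by
  let U' : Opens (Cm n) := ⟨U, hU⟩
  have hpre : PreconnectedSpace U' := isPreconnected_iff_preconnectedSpace.1 hUc
  have h1 := (H383.Gen.compl n U' (Subtype.val ⁻¹' T) (small_val hTc hT)).2
  have h2 : U \ T = Subtype.val '' ((Subtype.val ⁻¹' T : Set U')ᶜ) := by
    ext w
    constructor
    · rintro ⟨hw1, hw2⟩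
      exact ⟨⟨w, hw1⟩, hw2, rfl⟩
    · rintro ⟨z, hz, rfl⟩
      exact ⟨z.2, hz⟩
  rw [h2]
  exact h1.image _ continuous_subtype_val.continuousOn

end Vale.Agent.P281.H349.Gen
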