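import Vale.Agent.P281.H349.Gen.Red
import Vale.Agent.P281.H349.Gen.Opn
import Vale.Agent.P281.H150.Sec

/-! P281, project T-V, neat models, block V13d (helper349): the points of a reduced hypersurface `D`
where a map `f` to `ℂ^q` restricts to an étale map of `D`. -/

open Set Filter Metric Vale.Agent.P281 Vale.Agent.P281.H713 Vale.Agent.P281.H64
open Vale.Agent.P281.H150.Gen
open scoped Topology ContDiff Manifold

noncomputable section

namespace Vale.Agent.P281.H349.Gen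

variable {q : ℕ} {M : Type} [TopologicalSpace M] [ChartedSpace (Cm (q + 1)) M]

/-- `D` is smooth at `x` and `f|D` is étale at `x`. -/
def Etl (D : Set M) (f : M → Cm q) (x : M) : Prop :=
  ∃ g, IsLocalEq (Cm (q + 1)) D g x ∧ ∀ ξ : Cm (q + 1), dV (Cm (q + 1)) f x ξ = 0 →
    dV (Cm (q + 1)) g x ξ = 0 → ξ = 0

variable [IsManifold 𝓘(ℂ, Cm (q + 1)) ω M]

theorem rep_analytic {V : Type} [NormedAddCommGroup V] [NormedSpace ℂ V] {h : M → V} {x₀ x : M}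
    (hx : x ∈ (chartAt (Cm (q + 1)) x₀).source) (hh : HolV (Cm (q + 1)) h x) :
    AnalyticAt ℂ (h ∘ (chartAt (Cm (q + 1)) x₀).symm) (chartAt (Cm (q + 1)) x₀ x) :=
  (HolV.rep hx hh).analyticAt

/-- The condition in a chart. -/
theorem inj_iff_chart {g : M → ℂ} {f : M → Cm q} {x₀ x : M}
    (hx : x ∈ (chartAt (Cm (q + 1)) x₀).source) (hg : HolV (Cm (q + 1)) g x)
    (hf : HolV (Cm (q + 1)) f x) :
    (∀ ξ : Cm (q + 1), dV (Cm (q + 1)) f x ξ = 0 → dV (Cm (q + 1)) g x ξ = 0 → ξ = 0) ↔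
      Function.Surjective (fderiv ℂ (cns (g ∘ (chartAt (Cm (q + 1)) x₀).symm)
        (f ∘ (chartAt (Cm (q + 1)) x₀).symm)) (chartAt (Cm (q + 1)) x₀ x)) := by
  set φ := chartAt (Cm (q + 1)) x₀ with hφ
  have hga := rep_analytic hx hg
  have hfa := rep_analytic hx hf
  have h1 : ∀ ξ, dV (Cm (q + 1)) g x ξ =
      fderiv ℂ (g ∘ φ.symm) (φ x) (dV (Cm (q + 1)) (φ : M → Cm (q + 1)) x ξ) := fun ξ =>
    congrArg (fun T : Cm (q + 1) →L[ℂ] ℂ => T ξ) (dV_eq_chart hx hg)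
  have h2 : ∀ ξ, dV (Cm (q + 1)) f x ξ =
      fderiv ℂ (f ∘ φ.symm) (φ x) (dV (Cm (q + 1)) (φ : M → Cm (q + 1)) x ξ) := fun ξ =>
    congrArg (fun T : Cm (q + 1) →L[ℂ] Cm q => T ξ) (dV_eq_chart hx hf)
  obtain ⟨A, hA⟩ := dV_chart_leftInv (E := Cm (q + 1)) hx
  have hA' : ∀ ξ, A (dV (Cm (q + 1)) (φ : M → Cm (q + 1)) x ξ) = ξ := fun ξ =>
    congrArg (fun T : Cm (q + 1) →L[ℂ] Cm (q + 1) => T ξ) hA
  set L := fderiv ℂ (cns (g ∘ φ.symm) (f ∘ φ.symm)) (φ x) with hL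
  have hLs : ∀ v, L v = 0 ↔ fderiv ℂ (g ∘ φ.symm) (φ x) v = 0 ∧
      fderiv ℂ (f ∘ φ.symm) (φ x) v = 0 := by
    intro v
    rw [hL, fderiv_cns hga hfa]
    constructor
    · intro h
      refine ⟨congrFun h 0, funext fun j => congrFun h j.succ⟩
    · rintro ⟨h3, h4⟩
      funext i
      refine Fin.cases ?_ (fun j => ?_) i
      · exact h3
      · exact congrFun h4 j
  have hinj : Function.Injective L ↔ Function.Surjective L :=
    LinearMap.injective_iff_surjective (f := (L : Cm (q + 1) →ₗ[ℂ] Cm (q + 1)))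
  rw [← hinj, injective_iff_map_eq_zero]
  constructor
  · intro h v hv
    obtain ⟨ξ, rfl⟩ := ISO.dV_chart_surj (E := Cm (q + 1)) hx v
    have h3 := (hLs _).1 hv
    rw [h ξ (by rw [h2]; exact h3.2) (by rw [h1]; exact h3.1), map_zero]
  · intro h ξ h3 h4
    rw [h2] at h3
    rw [h1] at h4
    have h5 := h _ ((hLs _).2 ⟨h4, h3⟩)
    rw [← hA' ξ]
    show A (dV (Cm (q + 1)) (φ : M → Cm (q + 1)) x ξ) = 0
    rw [h5, map_zero]

/-- The setting near a point. -/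
theorem exists_near {D : Set M} {f : M → Cm q} {x : M} (hf : HolV (Cm (q + 1)) f x) {g : M → ℂ}
    (hg : IsLocalEq (Cm (q + 1)) D g x) : ∃ U : Set M, IsOpen U ∧ x ∈ U ∧
      U ⊆ (chartAt (Cm (q + 1)) x).source ∧ ∀ y ∈ U, HolV (Cm (q + 1)) f y ∧
        IsLocalEq (Cm (q + 1)) D g y := by
  obtain ⟨U, hU, hUo, hxU⟩ := eventually_nhds_iff.1 ((hf.eventually.and hg.eventually).and
    ((chartAt (Cm (q + 1)) x).open_source.mem_nhds (mem_chart_source _ x)))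
  exact ⟨U, hUo, hxU, fun y hy => (hU y hy).2, fun y hy => (hU y hy).1⟩

/-- The condition is open. -/
theorem Etl.eventually {D : Set M} {f : M → Cm q} {x : M} (h : Etl D f x)
    (hf : HolV (Cm (q + 1)) f x) : ∀ᶠ y in 𝓝 x, Etl D f y := by
  obtain ⟨g, hg, hinj⟩ := h
  obtain ⟨U, hUo, hxU, hUs, hU⟩ := exists_near hf hg
  set φ := chartAt (Cm (q + 1)) x with hφ
  set W : Set (Cm (q + 1)) := φ.target ∩ φ.symm ⁻¹' U with hW
  have hWo : IsOpen W := φ.isOpen_inter_preimage_symm hUo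
  have hWU : ∀ v ∈ W, φ.symm v ∈ U := fun v hv => hv.2
  have han : ∀ v ∈ W, AnalyticAt ℂ (cns (g ∘ φ.symm) (f ∘ φ.symm)) v := by
    intro v hv
    have h1 := rep_analytic (hUs (hWU v hv)) (hU _ (hWU v hv)).1
    have h2 := rep_analytic (hUs (hWU v hv)) (hU _ (hWU v hv)).2.holAt
    rw [φ.right_inv hv.1] at h1 h2
    exact cns_analytic h2 h1
  have hxs : x ∈ φ.source := hUs hxU
  have hxW : φ x ∈ W := ⟨φ.map_source hxs, by rw [mem_preimage, φ.left_inv hxs]; exact hxU⟩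
  have hs := (inj_iff_chart hxs hg.holAt hf).1 hinj
  obtain ⟨U₁, ι₁, h₁, hU₁, hxU₁, hh₁, hA₁⟩ := anIn_crit hWo han (φ x) hxW
  obtain ⟨i, hi⟩ : ∃ i, h₁ i (φ x) ≠ 0 := by
    by_contra hcon
    push Not at hcon
    exact (hA₁ _ hxU₁).2 hcon hs
  have h3 : ∀ᶠ v in 𝓝 (φ x), Function.Surjective (fderiv ℂ (cns (g ∘ φ.symm) (f ∘ φ.symm)) v) := by
    filter_upwards [hU₁.eventually_mem hxU₁, (hh₁ i _ hxU₁).continuousAt.eventually_ne hi]
      with v hv1 hv2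
    by_contra hcon
    exact hv2 ((hA₁ v hv1).1 hcon i)
  filter_upwards [(φ.continuousAt hxs).eventually h3, hUo.mem_nhds hxU] with y hy hyU
  exact ⟨g, (hU y hyU).2, (inj_iff_chart (hUs hyU) (hU y hyU).2.holAt (hU y hyU).1).2 hy⟩

/-- The image of the points where `f|D` is not étale is small. -/
theorem sthin_loc {D : Set M} (hD : ∀ x, ∃ g, IsLocalEq (Cm (q + 1)) D g x) {f : M → Cm q}
    {x : M} (hf : HolV (Cm (q + 1)) f x) :
    ∃ N ∈ 𝓝 x, SThin (Cm q) (f '' ({y | y ∈ D ∧ ¬ Etl D f y} ∩ N)) := by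
  obtain ⟨g, hg⟩ := hD x
  obtain ⟨U, hUo, hxU, hUs, hU⟩ := exists_near hf hg
  set φ := chartAt (Cm (q + 1)) x with hφ
  set W : Set (Cm (q + 1)) := φ.target ∩ φ.symm ⁻¹' U with hW
  have hWo : IsOpen W := φ.isOpen_inter_preimage_symm hUo
  have hWU : ∀ v ∈ W, φ.symm v ∈ U := fun v hv => hv.2
  have hgW : ∀ v ∈ W, AnalyticAt ℂ (g ∘ φ.symm) v := by
    intro v hv
    have h2 := rep_analytic (hUs (hWU v hv)) (hU _ (hWU v hv)).2.holAt
    rwa [φ.right_inv hv.1] at h2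
  have hfW : ∀ v ∈ W, AnalyticAt ℂ (f ∘ φ.symm) v := by
    intro v hv
    have h2 := rep_analytic (hUs (hWU v hv)) (hU _ (hWU v hv)).1
    rwa [φ.right_inv hv.1] at h2
  refine ⟨U, hUo.mem_nhds hxU, (sthin_crt hWo hgW hfW ?_).mono ?_⟩
  · intro v hv hv0
    have hz := hWU v hv
    have h1 := (MF.leq_dense_dif (hU _ hz).2).self_of_nhds ((hU _ hz).2.mem_iff.2 hv0)
    rw [mem_closure_iff_frequently] at h1
    have h2 : Tendsto φ (𝓝 (φ.symm v)) (𝓝 v) := by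
      have := (φ.continuousAt (hUs hz)).tendsto
      rwa [φ.right_inv hv.1] at this
    refine h2.frequently ?_
    refine (h1.and_eventually (hUo.mem_nhds hz)).mono ?_
    rintro y ⟨⟨hyD, hyd⟩, hyU⟩
    refine ⟨?_, (H511.Gen.dif_ne_iff_chart (hUs hyU) (hU y hyU).2.holAt).1 hyd⟩
    show g (φ.symm (φ y)) = 0
    rw [φ.left_inv (hUs hyU)]
    exact (hU y hyU).2.mem_iff.1 hyD
  · rintro _ ⟨y, ⟨⟨hyD, hyE⟩, hyU⟩, rfl⟩
    have hys := hUs hyU
    refine ⟨φ y, ⟨⟨?_, ?_⟩, φ.map_source hys, ?_⟩, ?_⟩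
    · show g (φ.symm (φ y)) = 0
      rw [φ.left_inv hys]
      exact (hU y hyU).2.mem_iff.1 hyD
    · intro hs
      exact hyE ⟨g, (hU y hyU).2, (inj_iff_chart hys (hU y hyU).2.holAt (hU y hyU).1).2 hs⟩
    · rw [mem_preimage, φ.left_inv hys]
      exact hyU
    · show f (φ.symm (φ y)) = f y
      rw [φ.left_inv hys]

/-- The local section of `f` in `D`. -/
theorem Etl.sec {D : Set M} {f : M → Cm q} {x : M} (h : Etl D f x)
    (hf : HolV (Cm (q + 1)) f x) (hx : x ∈ D) : ∃ s : Cm q → M, HolM (Cm q) (Cm (q + 1)) s (f x) ∧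
      s (f x) = x ∧ (∀ᶠ y in 𝓝 (f x), f (s y) = y ∧ s y ∈ D) ∧
      ∀ᶠ z in 𝓝 x, z ∈ D → s (f z) = z := by
  obtain ⟨g, hg, hinj⟩ := h
  have e₀ : Cm (q + 1) ≃L[ℂ] (Cm q × ℂ) := ContinuousLinearEquiv.ofFinrankEq (by simp)
  obtain ⟨s, h1, h2, h3, h4⟩ := H150.exists_sec e₀ (f := f) (u := g) (x₀ := x) hf hg.holAt
    (hg.mem_iff.1 hx) hinj
  have hsc : ContinuousAt s (f x) := ContMDiffAt.continuousAt h1
  have hst : Tendsto s (𝓝 (f x)) (𝓝 x) := by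
    have := hsc.tendsto
    rwa [h2] at this
  refine ⟨s, h1, h2, ?_, ?_⟩
  · filter_upwards [h3, hst.eventually hg.eventually] with y hy1 hy2
    exact ⟨hy1.1, hy2.mem_iff.2 hy1.2⟩
  · filter_upwards [h4, hg.eventually] with z hz1 hz2 hz3
    exact hz1 (hz2.mem_iff.1 hz3)

end Vale.Agent.P281.H349.Gen
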