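import Vale.Agent.P281.H349.Gen.Dir
import Vale.Agent.P281.H303.Gen.Irr
import Vale.Agent.P281.H364.Gen.Crit
import Vale.Agent.P281.H64.Gen.SpecN

/-! P281, project T-V, neat models, block V13d (helper349): the image of a prime divisor by a
holomorphic map of complex manifolds of the same dimension which is a local isomorphism at some of its
points is a prime divisor (Remmert's theorem for hypersurfaces). -/

open Set Filter Metric Vale.Agent.P281 Vale.Agent.P281.H713 Vale.Agent.P281.H64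
open Vale.Agent.P281.H64.Gen (excSet IsAnalyticSet PushStmt)
open scoped Topology ContDiff Manifold

set_option linter.unusedSectionVars false

noncomputable section

namespace Vale.Agent.P281.H349.Gen

section

variable {n : ℕ} {X X₁ : Type} [TopologicalSpace X] [ChartedSpace (Cm n) X] [TopologicalSpace X₁]
  [ChartedSpace (Cm n) X₁]

theorem excSet_eq (u : X₁ → X) : excSet (Cm n) u = H364.critSet (n := n) (p := n) u := by
  ext z
  have h1 : Function.Injective (dM (Cm n) (Cm n) u z : Cm n →L[ℂ] Cm n) ↔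
      Function.Surjective (dM (Cm n) (Cm n) u z : Cm n →L[ℂ] Cm n) :=
    LinearMap.injective_iff_surjective (f := ((dM (Cm n) (Cm n) u z : Cm n →L[ℂ] Cm n) :
      Cm n →ₗ[ℂ] Cm n))
  constructor
  · intro h hs
    exact h ⟨h1.2 hs, hs⟩
  · intro h hb
    exact h hb.2

end

variable {q : ℕ} {X X₁ : Type} [TopologicalSpace X] [T2Space X] [ChartedSpace (Cm (q + 1)) X]
  [IsManifold 𝓘(ℂ, Cm (q + 1)) ω X] [TopologicalSpace X₁] [T2Space X₁] [CompactSpace X₁]
  [ChartedSpace (Cm (q + 1)) X₁] [IsManifold 𝓘(ℂ, Cm (q + 1)) ω X₁]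

/-- Near every point, the image is a hypersurface. -/
theorem image_hyp {u : X₁ → X} (hu : ContMDiff 𝓘(ℂ, Cm (q + 1)) 𝓘(ℂ, Cm (q + 1)) ω u) {D : Set X₁}
    (hD : J.IsPrime (Cm (q + 1)) D) (hne : ¬ D ⊆ excSet (Cm (q + 1)) u) (x₀ : X) :
    ∃ g : X → ℂ, J.HolAt (Cm (q + 1)) g x₀ ∧ (¬ ∀ᶠ z in 𝓝 x₀, g z = 0) ∧
      ∀ᶠ z in 𝓝 x₀, z ∈ u '' D ↔ g z = 0 := by
  have : SecondCountableTopology X₁ :=
    ChartedSpace.secondCountable_of_sigmaCompact (Cm (q + 1)) X₁
  have hA : IsAnalyticSet (Cm (q + 1)) (excSet (Cm (q + 1)) u) := by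
    rw [excSet_eq]
    exact H364.critSet_analytic hu
  have hdense := H511.Gen.subset_closure_diff hD hA hne
  set φ := chartAt (Cm (q + 1)) x₀ with hφ
  have hx₀ : x₀ ∈ φ.source := mem_chart_source _ x₀
  set F : X₁ → Cm (q + 1) := fun z => φ (u z) - φ x₀ with hF
  have hφu : ∀ x ∈ u ⁻¹' φ.source, HolV (Cm (q + 1)) (fun z => φ (u z)) x := fun x hx =>
    HolV.comp (HolV.chart hx) (hu x)
  have hG : ∀ w : Cm (q + 1), ContDiffAt ℂ ω (fun w => w - φ x₀) w := fun w =>
    contDiffAt_id.sub contDiffAt_const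
  have hGd : ∀ w : Cm (q + 1), fderiv ℂ (fun w => w - φ x₀) w = ContinuousLinearMap.id ℂ _ := by
    intro w
    rw [fderiv_sub_const]
    exact fderiv_fun_id
  have hFh : ∀ x ∈ u ⁻¹' φ.source, HolV (Cm (q + 1)) F x := fun x hx =>
    HolV.comp_contDiff (G := fun w => w - φ x₀) (hG _) (hφu x hx)
  have hFd : ∀ x ∈ u ⁻¹' φ.source, ∀ ξ, dV (Cm (q + 1)) F x ξ =
      dV (Cm (q + 1)) (φ : X → Cm (q + 1)) (u x) (dM (Cm (q + 1)) (Cm (q + 1)) u x ξ) := by
    intro x hx ξ
    have h1 : dV (Cm (q + 1)) F x = (fderiv ℂ (fun w => w - φ x₀) (φ (u x))).comp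
        (dV (Cm (q + 1)) (fun z => φ (u z)) x) :=
      dV_comp_contDiff (G := fun w => w - φ x₀) (hG _) (hφu x hx)
    rw [h1, hGd, ContinuousLinearMap.id_comp, dV_comp (HolV.chart hx) (hu x)]
    rfl
  have hpre : Pre D (u ⁻¹' φ.source) F :=
    { loc := hD.2.1
      opn := φ.open_source.preimage hu.continuous
      hF := hFh
      cpt := by
        obtain ⟨ρ, hρ, hρt⟩ := Metric.nhds_basis_closedBall.mem_iff.1
          (φ.open_target.mem_nhds (φ.map_source hx₀))
        refine ⟨ρ, hρ, ?_⟩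
        have h1 : IsCompact (φ.symm '' closedBall (φ x₀) ρ) :=
          (isCompact_closedBall _ _).image_of_continuousOn (φ.continuousOn_symm.mono hρt)
        have h2 : {x | x ∈ D ∧ x ∈ u ⁻¹' φ.source ∧ ‖F x‖ ≤ ρ} =
            D ∩ u ⁻¹' (φ.symm '' closedBall (φ x₀) ρ) := by
          ext x
          constructor
          · rintro ⟨h3, h4, h5⟩
            refine ⟨h3, φ (u x), ?_, φ.left_inv h4⟩
            rw [mem_closedBall, dist_eq_norm]
            exact h5
          · rintro ⟨h3, w, hw, hwx⟩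
            have h4 : u x ∈ φ.source := by
              rw [← hwx]
              exact φ.map_target (hρt hw)
            refine ⟨h3, h4, ?_⟩
            have h5 : φ (u x) = w := by rw [← hwx, φ.right_inv (hρt hw)]
            show ‖φ (u x) - φ x₀‖ ≤ ρ
            rw [h5, ← dist_eq_norm]
            exact mem_closedBall.1 hw
        rw [h2]
        exact (hD.1.inter (h1.isClosed.preimage hu.continuous)).isCompact
      dense := by
        rintro N hN ⟨x, hxN, hxD, hxO⟩
        obtain ⟨y, hyN, hyD, hyE⟩ := mem_closure_iff_nhds.1 (hdense hxD)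
          (N ∩ u ⁻¹' φ.source) ((hN.inter (φ.open_source.preimage hu.continuous)).mem_nhds
            ⟨hxN, hxO⟩)
        obtain ⟨hyD', g, hg, hdg⟩ := hyD
        refine ⟨y, hyN.1, hyD', hyN.2, g, hg, hdg, fun ξ hξ => ?_⟩
        rw [hFd y hyN.2] at hξ
        have hbij : Function.Bijective (dM (Cm (q + 1)) (Cm (q + 1)) u y) := not_not.1 hyE
        obtain ⟨A, hA⟩ := dV_chart_leftInv (E := Cm (q + 1)) (X := X) hyN.2
        have h1 : A (dV (Cm (q + 1)) (φ : X → Cm (q + 1)) (u y)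
            (dM (Cm (q + 1)) (Cm (q + 1)) u y ξ)) = dM (Cm (q + 1)) (Cm (q + 1)) u y ξ :=
          congrArg (fun T : Cm (q + 1) →L[ℂ] Cm (q + 1) =>
            T (dM (Cm (q + 1)) (Cm (q + 1)) u y ξ)) hA
        rw [hξ, map_zero] at h1
        exact hbij.1 (h1.symm.trans (map_zero _).symm) }
  obtain ⟨Q, hQ, hQ0, hQz⟩ := hpre.main
  have ht : Tendsto (fun z => φ z - φ x₀) (𝓝 x₀) (𝓝 0) := by
    have h1 : ContinuousAt (fun z => φ z - φ x₀) x₀ := (φ.continuousAt hx₀).sub continuousAt_const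
    have h2 := h1.tendsto
    rwa [sub_self] at h2
  have ht' : Tendsto (fun w => φ.symm (w + φ x₀)) (𝓝 0) (𝓝 x₀) := by
    have h1 : Tendsto (fun w : Cm (q + 1) => w + φ x₀) (𝓝 0) (𝓝 (φ x₀)) := by
      have h3 : Continuous (fun w : Cm (q + 1) => w + φ x₀) := by fun_prop
      have := h3.tendsto 0
      rwa [zero_add] at this
    have h2 := (φ.continuousAt_symm (φ.map_source hx₀)).tendsto
    rw [φ.left_inv hx₀] at h2
    exact h2.comp h1
  have ht0 : ∀ᶠ w in 𝓝 (0 : Cm (q + 1)), w + φ x₀ ∈ φ.target := by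
    have h3 : Continuous (fun w : Cm (q + 1) => w + φ x₀) := by fun_prop
    refine h3.continuousAt.eventually_mem ?_
    rw [zero_add]
    exact φ.open_target.mem_nhds (φ.map_source hx₀)
  refine ⟨fun z => Q (φ z - φ x₀), ?_, fun hcon => hQ0 ?_, ?_⟩
  · have h1 : HolV (Cm (q + 1)) (fun z => φ z - φ x₀) x₀ :=
      HolV.comp_contDiff (G := fun w => w - φ x₀) (hG _) (HolV.chart hx₀)
    refine HolV.comp_contDiff (G := Q) (v := fun z => φ z - φ x₀) ?_ h1
    rw [sub_self]
    exact hQ.contDiffAt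
  · filter_upwards [ht'.eventually hcon, ht0] with w hw hwt
    rwa [φ.right_inv hwt, add_sub_cancel_right] at hw
  · filter_upwards [ht.eventually hQz, φ.open_source.mem_nhds hx₀] with z hz hzs
    rw [hz]
    constructor
    · rintro ⟨x, hx, rfl⟩
      exact ⟨x, hx, hzs, rfl⟩
    · rintro ⟨x, hx, hxO, hxz⟩
      refine ⟨x, hx, φ.injOn hxO hzs ?_⟩
      exact sub_left_inj.1 hxz

/-- **The image of a prime divisor.** -/
theorem image_prime {u : X₁ → X} (hu : ContMDiff 𝓘(ℂ, Cm (q + 1)) 𝓘(ℂ, Cm (q + 1)) ω u)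
    {D : Set X₁} (hD : J.IsPrime (Cm (q + 1)) D) (hne : ¬ D ⊆ excSet (Cm (q + 1)) u) :
    J.IsPrime (Cm (q + 1)) (u '' D) := by
  have hcl : IsClosed (u '' D) := (hD.1.isCompact.image hu.continuous).isClosed
  have hloc := image_hyp hu hD hne
  obtain ⟨q₀, hq₀, -⟩ := hD.2.2.nonempty
  obtain ⟨g, hg, hg0, hgD⟩ := hloc (u q₀)
  obtain ⟨z, -, e, he, he0, hde, heD⟩ := H511.Gen.exists_smooth hg hg0 hgD
    (mem_image_of_mem u hq₀) univ_mem
  obtain ⟨P, hP, hPD, hPe⟩ := H303.Gen.irr (q + 1) X (u '' D) hcl hloc z e he he0 hde heD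
  have hPa := H511.Gen.isAnalyticSet_preimage hu (H511.Gen.isAnalyticSet_prime hP)
  obtain ⟨x, hxD, hxz⟩ := heD.self_of_nhds.2 he0
  have h1 : ∀ᶠ w in 𝓝 z, w ∈ u '' D → w ∈ P := by
    filter_upwards [heD, H511.Gen.isLocalEq_mem_iff hPe] with w h2 h3 h4
    exact h3.2 (h2.1 h4)
  have h2 : ∀ᶠ y in 𝓝 x, y ∈ D → y ∈ u ⁻¹' P := by
    rw [← hxz] at h1
    filter_upwards [hu.continuous.continuousAt.eventually h1] with y h3 h4
    exact h3 (mem_image_of_mem u h4)
  obtain ⟨y, hy1, hy2⟩ := ((mem_closure_iff_frequently.1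
    (H511.Gen.subset_closure_sm hD.2.1 hxD)).and_eventually h2.eventually_nhds).exists
  have h3 := H511.Gen.subset_of_eventually hD hPa hy1 hy2
  have h4 : u '' D = P := Subset.antisymm (image_subset_iff.2 h3) hPD
  rw [h4]
  exact hP

/-- **V13d**. -/
theorem push : PushStmt := by
  intro n X X₁ _ _ _ _ _ u D hmod hD hne
  obtain ⟨⟨_, _, _, _⟩, hu, hprop, -⟩ := hmod
  have hc : CompactSpace X₁ := ⟨by simpa using hprop.isCompact_preimage isCompact_univ⟩
  obtain rfl | ⟨q, rfl⟩ : n = 0 ∨ ∃ q, n = q + 1 := by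
    rcases n with _ | q
    · exact Or.inl rfl
    · exact Or.inr ⟨q, rfl⟩
  · exfalso
    obtain ⟨x, -, g, -, hdg⟩ := hD.2.2.nonempty
    apply hdg
    refine ContinuousLinearMap.ext fun v => ?_
    have : v = 0 := Subsingleton.elim _ _
    rw [this, map_zero]
    rfl
  · exact image_prime hu hD hne

end Vale.Agent.P281.H349.Gen
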