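import Vale.Agent.P281.H150.Gen.Core
import Vale.Agent.P281.H511.Gen.Prime

/-! P281, project T-V, neat models, block V13d (helper349): the critical points of a map on a reduced
hypersurface: the restriction of the map to the set of these points is nowhere submersive. -/

open Set Filter Metric Vale.Agent.P281 Vale.Agent.P281.H713 Vale.Agent.P281.H64
open Vale.Agent.P281.H150.Gen
open scoped Topology ContDiff Manifold

noncomputable section

namespace Vale.Agent.P281.H349.Gen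

/-- A reduced function does not vanish together with its differential on a smooth hypersurface. -/
theorem not_red {n : ℕ} {g h : Cm n → ℂ} {z₀ : Cm n} (hg : AnalyticAt ℂ g z₀)
    (hh : AnalyticAt ℂ h z₀) (hh0 : h z₀ = 0) (hdh : fderiv ℂ h z₀ ≠ 0)
    (hred : ∀ᶠ z in 𝓝 z₀, g z = 0 → ∃ᶠ y in 𝓝 z, g y = 0 ∧ fderiv ℂ g y ≠ 0)
    (hz : ∀ᶠ z in 𝓝 z₀, h z = 0 → g z = 0 ∧ fderiv ℂ g z = 0) : False := by
  have hg0 : ¬ ∀ᶠ z in 𝓝 z₀, g z = 0 := by
    intro hcon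
    have h1 := hred.self_of_nhds hcon.self_of_nhds
    obtain ⟨y, hy1, hy2⟩ := (h1.and_eventually (eventually_eventually_nhds.2 hcon)).exists
    apply hy1.2
    have h2 : g =ᶠ[𝓝 y] fun _ => 0 := hy2
    rw [h2.fderiv_eq]
    simp
  have hdh' : J.dif (Cm n) h z₀ ≠ 0 := by
    have h1 : J.dif (Cm n) h z₀ = fderiv ℂ h z₀ := mfderiv_eq_fderiv
    rw [h1]
    exact hdh
  obtain ⟨m, w, hw, hev, hw0⟩ := H511.Gen.exists_pow_mul (X := Cm n) (holAt_of_analyticAt hh) hh0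
    hdh' (holAt_of_analyticAt hg) hg0
  obtain ⟨y, hy, hy2⟩ := (Filter.not_eventually.1 hw0).and_eventually
    ((hev.eventually_nhds.and hz).and ((eventually_eventually_nhds.2 hz).and
      (hred.and (analyticAt_of_holAt hw).eventually_analyticAt))) |>.exists
  obtain ⟨⟨hy3, hy4⟩, hy5, hy6, hy7⟩ := hy2
  rw [Classical.not_imp] at hy
  have hgy : g y = 0 := (hy4 hy.1).1
  have hm : m ≠ 0 := by
    rintro rfl
    have h1 := hy3.self_of_nhds
    rw [pow_zero, one_mul, hgy] at h1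
    exact hy.2 h1.symm
  obtain ⟨y', ⟨h1, h2⟩, h3, h4, h5⟩ := ((hy6 hgy).and_eventually
    (hy3.and (hy5.and (hy7.continuousAt.eventually_ne hy.2)))).exists
  apply h2
  refine (h4 ?_).2
  rw [h3, mul_eq_zero, or_iff_left h5, pow_eq_zero_iff hm] at h1
  exact h1

theorem AnIn.inter {V : Type} [NormedAddCommGroup V] [NormedSpace ℂ V] {W A B : Set V}
    (hA : AnIn W A) (hB : AnIn W B) : AnIn W (A ∩ B) := by
  intro z hz
  obtain ⟨U, ι, h, hU, hzU, hh, hAU⟩ := hA z hz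
  obtain ⟨U', ι', h', hU', hzU', hh', hBU⟩ := hB z hz
  refine ⟨U ∩ U', ι ⊕ ι', Sum.elim h h', hU.inter hU', ⟨hzU, hzU'⟩, ?_, ?_⟩
  · rintro (i | i) w hw
    · exact hh i w hw.1
    · exact hh' i w hw.2
  · intro w hw
    rw [mem_inter_iff, hAU w hw.1, hBU w hw.2, Sum.forall]
    rfl

variable {q : ℕ}

/-- The map `(g, f)`. -/
def cns (g : Cm (q + 1) → ℂ) (f : Cm (q + 1) → Cm q) (z : Cm (q + 1)) : Cm (q + 1) :=
  Fin.cons (g z) (f z)

theorem cns_analytic {g : Cm (q + 1) → ℂ} {f : Cm (q + 1) → Cm q} {z : Cm (q + 1)}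
    (hg : AnalyticAt ℂ g z) (hf : AnalyticAt ℂ f z) : AnalyticAt ℂ (cns g f) z := by
  rw [analyticAt_pi_iff]
  intro i
  refine Fin.cases ?_ (fun j => ?_) i
  · exact hg
  · exact (analyticAt_pi_iff.1 hf) j

theorem fderiv_cns {g : Cm (q + 1) → ℂ} {f : Cm (q + 1) → Cm q} {z : Cm (q + 1)}
    (hg : AnalyticAt ℂ g z) (hf : AnalyticAt ℂ f z) (v : Cm (q + 1)) :
    fderiv ℂ (cns g f) z v = Fin.cons (fderiv ℂ g z v) (fderiv ℂ f z v) := by
  have h1 := (cns_analytic hg hf).differentiableAt.hasFDerivAt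
  rw [hasFDerivAt_pi'] at h1
  funext i
  refine Fin.cases ?_ (fun j => ?_) i
  · have h2 := (h1 0).unique hg.differentiableAt.hasFDerivAt
    exact congrArg (fun T : Cm (q + 1) →L[ℂ] ℂ => T v) h2
  · have h2 := (h1 j.succ).unique ((hasFDerivAt_pi'.1 hf.differentiableAt.hasFDerivAt) j)
    exact congrArg (fun T : Cm (q + 1) →L[ℂ] ℂ => T v) h2

/-- The points of `{g = 0}` where `f` restricted to `{g = 0}` is not étale. -/
def crt (g : Cm (q + 1) → ℂ) (f : Cm (q + 1) → Cm q) : Set (Cm (q + 1)) :=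
  {z | g z = 0} ∩ {z | ¬ Function.Surjective (fderiv ℂ (cns g f) z)}

theorem anIn_crt {W : Set (Cm (q + 1))} (hW : IsOpen W) {g : Cm (q + 1) → ℂ}
    {f : Cm (q + 1) → Cm q} (hg : ∀ z ∈ W, AnalyticAt ℂ g z) (hf : ∀ z ∈ W, AnalyticAt ℂ f z) :
    AnIn W (crt g f) := by
  refine AnIn.inter ?_ (anIn_crit hW fun z hz => cns_analytic (hg z hz) (hf z hz))
  intro z hz
  exact ⟨W, Unit, fun _ => g, hW, hz, fun _ w hw => hg w hw, fun w _ =>
    ⟨fun h _ => h, fun h => h ()⟩⟩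

theorem noSub_crt {W : Set (Cm (q + 1))} {g : Cm (q + 1) → ℂ}
    {f : Cm (q + 1) → Cm q} (hg : ∀ z ∈ W, AnalyticAt ℂ g z) (hf : ∀ z ∈ W, AnalyticAt ℂ f z)
    (hred : ∀ z ∈ W, g z = 0 → ∃ᶠ y in 𝓝 z, g y = 0 ∧ fderiv ℂ g y ≠ 0) (hW : IsOpen W) :
    NoSub W (crt g f) f := by
  intro V' _ _ _ W' φ hW' hφ x hx hs
  have : CompleteSpace V' := FiniteDimensional.complete ℂ V'
  -- a section `θ` of `f`
  have hFa : AnalyticAt ℂ (fun v => f (φ v)) x :=
    AnalyticAt.fun_comp (g := f) (f := φ) (hf _ (hφ x hx).2.2) (hφ x hx).1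
  obtain ⟨κ, R, hRa, hR0, hRr, -⟩ := exists_straight hFa hs
  set w₀ := f (φ x) with hw₀
  set j : Cm q → Cm q × LinearMap.ker (fderiv ℂ (fun v => f (φ v)) x : V' →ₗ[ℂ] Cm q) :=
    fun w => (w, κ x) with hj
  have hja : AnalyticAt ℂ j w₀ := analyticAt_id.prod analyticAt_const
  have hjt : Tendsto j (𝓝 w₀) (𝓝 (w₀, κ x)) := hja.continuousAt.tendsto
  have hRj : AnalyticAt ℂ (fun w => R (j w)) w₀ :=
    AnalyticAt.fun_comp (g := R) (f := j) hRa hja
  have hRjt : Tendsto (fun w => R (j w)) (𝓝 w₀) (𝓝 x) := by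
    have := hRj.continuousAt.tendsto
    simp only [hj] at this
    rwa [hR0] at this
  set θ : Cm q → Cm (q + 1) := fun w => φ (R (j w)) with hθ
  have hθa : AnalyticAt ℂ θ w₀ := AnalyticAt.fun_comp (g := φ) (f := fun w => R (j w))
    (by simp only [hj]; rw [hR0]; exact (hφ x hx).1) hRj
  set z₀ := φ x with hz₀
  have hθ0 : θ w₀ = z₀ := by simp only [hθ, hj]; rw [hR0]
  have hθt : Tendsto θ (𝓝 w₀) (𝓝 z₀) := by
    have := hθa.continuousAt.tendsto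
    rwa [hθ0] at this
  have hfθ : ∀ᶠ w in 𝓝 w₀, f (θ w) = w := hjt.eventually hRr
  have hθA : ∀ᶠ w in 𝓝 w₀, θ w ∈ crt g f ∩ W := by
    filter_upwards [hRjt.eventually (hW'.mem_nhds hx)] with w hw
    exact (hφ _ hw).2
  have hz₀W : z₀ ∈ W := (hφ x hx).2.2
  -- the differential of `g` vanishes on the image of `θ`
  have hdg : ∀ᶠ w in 𝓝 w₀, fderiv ℂ g (θ w) = 0 := by
    filter_upwards [hθA, hfθ.eventually_nhds, hθA.eventually_nhds, hθa.eventually_analyticAt]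
      with w h1 h2 h3 h4
    have hg1 := (hg _ h1.2).differentiableAt.hasFDerivAt
    have hf1 := (hf _ h1.2).differentiableAt.hasFDerivAt
    have h5 : (fderiv ℂ f (θ w)).comp (fderiv ℂ θ w) = ContinuousLinearMap.id ℂ (Cm q) :=
      (hf1.comp w h4.differentiableAt.hasFDerivAt).unique
        ((hasFDerivAt_id w).congr_of_eventuallyEq (h2.mono fun y hy => hy))
    have h6 : (fderiv ℂ g (θ w)).comp (fderiv ℂ θ w) = 0 :=
      (hg1.comp w h4.differentiableAt.hasFDerivAt).unique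
        ((hasFDerivAt_const (0 : ℂ) w).congr_of_eventuallyEq (h3.mono fun y hy => hy.1.1))
    by_contra hne
    obtain ⟨v, hv⟩ : ∃ v, fderiv ℂ g (θ w) v ≠ 0 := by
      by_contra hcon
      push Not at hcon
      exact hne (ContinuousLinearMap.ext hcon)
    apply h1.1.2
    intro y
    set c := y 0 / fderiv ℂ g (θ w) v with hc
    set u : Cm q := fun i => y i.succ with hu
    refine ⟨c • v + fderiv ℂ θ w (u - fderiv ℂ f (θ w) (c • v)), ?_⟩
    have h7 : ∀ ξ, fderiv ℂ f (θ w) (fderiv ℂ θ w ξ) = ξ := fun ξ =>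
      congrArg (fun T : Cm q →L[ℂ] Cm q => T ξ) h5
    have h8 : ∀ ξ, fderiv ℂ g (θ w) (fderiv ℂ θ w ξ) = 0 := fun ξ =>
      congrArg (fun T : Cm q →L[ℂ] ℂ => T ξ) h6
    rw [fderiv_cns (hg _ h1.2) (hf _ h1.2), map_add, map_add, h7, h8, map_smul, add_zero,
      add_sub_cancel, smul_eq_mul, hc, div_mul_cancel₀ _ hv]
    funext i
    refine Fin.cases ?_ (fun j => ?_) i <;> simp [hu]
  -- the equation of the image of `θ`
  have hfs : Function.Surjective (fderiv ℂ f z₀) := by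
    have h2 : fderiv ℂ (fun v => f (φ v)) x = (fderiv ℂ f z₀).comp (fderiv ℂ φ x) :=
      ((hf _ hz₀W).differentiableAt.hasFDerivAt.comp x
        (hφ x hx).1.differentiableAt.hasFDerivAt).fderiv
    rw [h2] at hs
    exact Function.Surjective.of_comp hs
  have hfa : AnalyticAt ℂ f z₀ := hf _ hz₀W
  obtain ⟨κ₂, R₂, hR₂a, hR₂0, -, hR₂l⟩ := exists_straight hfa hfs
  have hfinK : Module.finrank ℂ (LinearMap.ker (fderiv ℂ f z₀ : Cm (q + 1) →ₗ[ℂ] Cm q)) = 1 := by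
    have h1 := LinearMap.finrank_range_add_finrank_ker (fderiv ℂ f z₀ : Cm (q + 1) →ₗ[ℂ] Cm q)
    have h2 : LinearMap.range (fderiv ℂ f z₀ : Cm (q + 1) →ₗ[ℂ] Cm q) = ⊤ :=
      LinearMap.range_eq_top.2 hfs
    rw [h2, finrank_top] at h1
    simp only [Module.finrank_fintype_fun_eq_card, Fintype.card_fin] at h1
    omega
  let e : (LinearMap.ker (fderiv ℂ f z₀ : Cm (q + 1) →ₗ[ℂ] Cm q)) ≃L[ℂ] ℂ :=
    ContinuousLinearEquiv.ofFinrankEq (by rw [hfinK, Module.finrank_self])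
  obtain ⟨v₀, hv₀⟩ : ∃ v₀ : (LinearMap.ker (fderiv ℂ f z₀ : Cm (q + 1) →ₗ[ℂ] Cm q)), v₀ ≠ 0 :=
    ⟨e.symm 1, by simp⟩
  have hdfv : fderiv ℂ f z₀ (v₀ : Cm (q + 1)) = 0 := v₀.2
  have hw₀z : f z₀ = w₀ := rfl
  have hθf : HasFDerivAt (fun z => θ (f z)) ((fderiv ℂ θ w₀).comp (fderiv ℂ f z₀)) z₀ := by
    have h1 : HasFDerivAt θ (fderiv ℂ θ w₀) (f z₀) := hθa.differentiableAt.hasFDerivAt
    exact h1.comp z₀ hfa.differentiableAt.hasFDerivAt
  set h : Cm (q + 1) → ℂ := fun z => e (κ₂ (z - θ (f z))) with hh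
  set ek : Cm (q + 1) →L[ℂ] ℂ :=
    (e : (LinearMap.ker (fderiv ℂ f z₀ : Cm (q + 1) →ₗ[ℂ] Cm q)) →L[ℂ] ℂ).comp κ₂ with hek
  have hhd : HasFDerivAt h (ek.comp (ContinuousLinearMap.id ℂ _ -
      (fderiv ℂ θ w₀).comp (fderiv ℂ f z₀))) z₀ := by
    have h1 : HasFDerivAt (fun z => z - θ (f z)) (ContinuousLinearMap.id ℂ _ -
      (fderiv ℂ θ w₀).comp (fderiv ℂ f z₀)) z₀ := (hasFDerivAt_id z₀).fun_sub hθf
    exact HasFDerivAt.comp (g := ek) z₀ ek.hasFDerivAt h1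
  have hha : AnalyticAt ℂ h z₀ := by
    have h1 : AnalyticAt ℂ (fun z => θ (f z)) z₀ :=
      AnalyticAt.fun_comp (g := θ) (f := f) hθa hfa
    exact (ek.analyticAt _).fun_comp (analyticAt_id.fun_sub h1)
  refine not_red (g := g) (h := h) (z₀ := z₀) (hg _ hz₀W) hha ?_ ?_ ?_ ?_
  · simp only [hh, hw₀z, hθ0, sub_self, map_zero]
  · rw [hhd.fderiv]
    intro h0
    have h1 := congrArg (fun T : Cm (q + 1) →L[ℂ] ℂ => T (v₀ : Cm (q + 1))) h0
    have h2 : e (κ₂ ((v₀ : Cm (q + 1)) - fderiv ℂ θ w₀ (fderiv ℂ f z₀ (v₀ : Cm (q + 1))))) = 0 := h1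
    rw [hdfv, map_zero, sub_zero] at h2
    have h3 : κ₂ (v₀ : Cm (q + 1)) = 0 := by
      have := e.injective (h2.trans (map_zero e).symm)
      exact this
    have h4 : HasFDerivAt (fun z => R₂ (f z, κ₂ z))
        ((fderiv ℂ R₂ (f z₀, κ₂ z₀)).comp ((fderiv ℂ f z₀).prod κ₂)) z₀ :=
      (hR₂a.differentiableAt.hasFDerivAt).comp z₀
        (hfa.differentiableAt.hasFDerivAt.prodMk κ₂.hasFDerivAt)
    have h5 := h4.unique ((hasFDerivAt_id z₀).congr_of_eventuallyEq (hR₂l.mono fun y hy => hy))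
    have h6 := congrArg (fun T : Cm (q + 1) →L[ℂ] Cm (q + 1) => T (v₀ : Cm (q + 1))) h5
    have h7 : fderiv ℂ R₂ (f z₀, κ₂ z₀) (fderiv ℂ f z₀ (v₀ : Cm (q + 1)), κ₂ (v₀ : Cm (q + 1))) =
      (v₀ : Cm (q + 1)) := h6
    rw [hdfv, h3] at h7
    apply hv₀
    apply Subtype.ext
    rw [← h7]
    exact map_zero _
  · filter_upwards [hW.mem_nhds hz₀W] with z hz
    exact hred z hz
  · have hft : Tendsto f (𝓝 z₀) (𝓝 w₀) := hfa.continuousAt.tendsto
    have hθft : Tendsto (fun z => θ (f z)) (𝓝 z₀) (𝓝 z₀) := hθt.comp hft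
    filter_upwards [hR₂l, hθft.eventually hR₂l, hft.eventually hfθ, hft.eventually hdg,
      hft.eventually hθA] with z h1 h2 h3 h4 h5 h6
    have h7 : κ₂ z = κ₂ (θ (f z)) := by
      have h8 : κ₂ (z - θ (f z)) = 0 := e.injective (h6.trans (map_zero e).symm)
      rw [map_sub, sub_eq_zero] at h8
      exact h8
    rw [h7] at h1
    rw [h3] at h2
    have h9 : θ (f z) = z := h2.symm.trans h1
    rw [h9] at h4 h5
    exact ⟨h5.1.1, h4⟩

/-- The image of the critical points is contained in a countable union of thin sets. -/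
theorem sthin_crt {W : Set (Cm (q + 1))} {g : Cm (q + 1) → ℂ} {f : Cm (q + 1) → Cm q}
    (hW : IsOpen W) (hg : ∀ z ∈ W, AnalyticAt ℂ g z) (hf : ∀ z ∈ W, AnalyticAt ℂ f z)
    (hred : ∀ z ∈ W, g z = 0 → ∃ᶠ y in 𝓝 z, g y = 0 ∧ fderiv ℂ g y ≠ 0) :
    SThin (Cm q) (f '' (crt g f ∩ W)) :=
  core q _ (Cm (q + 1)) rfl W (crt g f) f hW hf (anIn_crt hW hg hf) (noSub_crt hg hf hred hW)

end Vale.Agent.P281.H349.Gen
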